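import Vale.Agent.P223.MT.Basic
import Mathlib.Data.Fin.Parity

/-! Block A: all steps. -/

namespace Vale.Agent.P223.MT

open H (Simp Chain face bd l1)

variable {M : Type} [TopologicalSpace M] {k j l n m : ℕ}

theorem alt_alt (n : ℕ) (a : Fin (n + 2) → Fin (n + 1) → ℝ)
    (h : ∀ i j, a (i.succAbove j) (j.predAbove i) = a i j) :
    ∑ i : Fin (n + 2), (-1 : ℝ) ^ (i : ℕ) * ∑ j : Fin (n + 1), (-1 : ℝ) ^ (j : ℕ) * a i j = 0 := by
  have h1 : ∑ i : Fin (n + 2), (-1 : ℝ) ^ (i : ℕ) * ∑ j : Fin (n + 1), (-1 : ℝ) ^ (j : ℕ) * a i j =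
      ∑ p : Fin (n + 2) × Fin (n + 1), (-1 : ℝ) ^ ((p.1 : ℕ) + p.2) * a p.1 p.2 := by
    rw [Fintype.sum_prod_type]
    refine Finset.sum_congr rfl fun i _ => ?_
    rw [Finset.mul_sum]
    refine Finset.sum_congr rfl fun j _ => ?_
    rw [pow_add]; ring
  rw [h1]
  refine Finset.sum_involution (fun p _ => (p.1.succAbove p.2, p.2.predAbove p.1)) ?_ ?_ ?_ ?_
  · rintro ⟨i, j⟩ _
    change (-1 : ℝ) ^ ((i : ℕ) + j) * a i j +
      (-1 : ℝ) ^ ((i.succAbove j : ℕ) + (j.predAbove i : ℕ)) * a (i.succAbove j) (j.predAbove i) = 0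
    rw [Fin.neg_one_pow_succAbove_add_predAbove, h]; ring
  · rintro ⟨i, j⟩ _ _ he
    exact Fin.succAbove_ne i j (congrArg Prod.fst he)
  · intro p _; exact Finset.mem_univ _
  · rintro ⟨i, j⟩ _
    exact Prod.ext (Fin.succAbove_succAbove_predAbove i j) (Fin.predAbove_predAbove_succAbove i j)

theorem face_swap (n : ℕ) (i : Fin (n + 2)) (j : Fin (n + 1)) :
    (face (n + 1) (i.succAbove j)).comp (face n (j.predAbove i)) =
      (face (n + 1) i).comp (face n j) := by
  rw [face_eq, face_eq, face_eq, face_eq, sub_comp, sub_comp]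
  congr 1
  ext a
  exact congrArg Fin.val (Fin.succAbove_succAbove_succAbove_predAbove i j a)

theorem coc_cob (b : Simp n M → ℝ) : IsCoc (Cob b) := by
  intro τ
  refine alt_alt n (fun i j => b ((τ.comp (face (n + 1) i)).comp (face n j))) fun i j => ?_
  rw [ContinuousMap.comp_assoc, ContinuousMap.comp_assoc, face_swap]

theorem Cob_add (b b' : Simp n M → ℝ) (σ : Simp (n + 1) M) :
    Cob (fun τ => b τ + b' τ) σ = Cob b σ + Cob b' σ := by
  unfold Cob
  rw [← Finset.sum_add_distrib]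
  exact Finset.sum_congr rfl fun i _ => by ring

theorem Cob_zero (σ : Simp (n + 1) M) : Cob (fun _ => 0) σ = 0 := by
  unfold Cob
  exact Finset.sum_eq_zero fun i _ => by ring

/-- cocycles do not change under homotopies relative to the boundary -/
theorem base (hP : SpecPrism) (c : Simp (n + 1) M → ℝ) (hc : IsCoc c) (hc1 : ∀ σ, |c σ| ≤ 1)
    {σ σ' : Simp (n + 1) M} (h : HomRel σ σ') : c σ = c σ' := by
  obtain ⟨B, -, hB⟩ := hP M n c hc hc1
  obtain ⟨F⟩ := h
  let K : Hom (n + 1) M := ⟨fun z => F z, F.continuous⟩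
  let K' : Hom (n + 1) M := ⟨fun z => σ z.2, by fun_prop⟩
  have h0 : K.at 0 = σ := by ext x; exact F.apply_zero x
  have h1 : K.at 1 = σ' := by ext x; exact F.apply_one x
  have h0' : K'.at 0 = σ := rfl
  have h1' : K'.at 1 = σ := rfl
  have hf : ∀ i, K.fc i = K'.fc i := fun i => by
    ext z
    exact F.eq_fst z.1 (face_mem_bdry i z.2)
  have e1 := hB K
  have e2 := hB K'
  simp only [hf] at e1
  rw [h0, h1, ← e2, h0', h1', sub_self, sub_eq_zero] at e1
  exact e1.symm

theorem A.main (hP : SpecPrism) (hSt : SpecStep) : SpecA := by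
  intro M _ n c hn hc hc1
  have key : ∀ a m : ℕ, m + a = n → 1 ≤ m →
      ∃ (c' : Simp (n + 1) M → ℝ) (b : Simp n M → ℝ), (∀ σ, |c' σ| ≤ 1) ∧
      (∀ σ, c' σ = c σ + Cob b σ) ∧
      ∀ σ σ' : Simp (n + 1) M, Function.Injective (vert σ) → Rel m σ σ' → c' σ = c' σ' := by
    intro a
    induction a with
    | zero =>
      intro m hm h1
      obtain rfl : m = n := by omega
      refine ⟨c, fun _ => 0, hc1, fun σ => by rw [Cob_zero, add_zero], fun σ σ' _ hr => ?_⟩
      have h2 := hr (RelEmbedding.refl _)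
      rw [sub_eq_id] at h2
      exact base hP c hc hc1 h2
    | succ a ih =>
      intro m hm h1
      obtain ⟨c', b, hc', hb, hr⟩ := ih (m + 1) (by omega) (by omega)
      have hcc : IsCoc c' := fun τ => by
        have e1 : ∀ i : Fin (n + 2), (-1 : ℝ) ^ (i : ℕ) * c' (τ.comp (face (n + 1) i)) =
            (-1 : ℝ) ^ (i : ℕ) * c (τ.comp (face (n + 1) i)) +
            (-1 : ℝ) ^ (i : ℕ) * Cob b (τ.comp (face (n + 1) i)) := fun i => by rw [hb]; ring
        rw [Finset.sum_congr rfl fun i _ => e1 i, Finset.sum_add_distrib, hc τ, coc_cob b τ,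
          add_zero]
      obtain ⟨c'', b', hc'', hb', hr'⟩ := hSt M n m c' h1 (by omega) hcc hc' hr
      refine ⟨c'', fun τ => b τ + b' τ, hc'', fun σ => ?_, hr'⟩
      rw [hb', hb, Cob_add, add_assoc]
  exact key (n - 1) 1 (by omega) le_rfl

end Vale.Agent.P223.MT
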