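import Vale.Agent.P223.MT.HEP

/-! Compatible systems of homotopies of all singular simplices. -/

namespace Vale.Agent.P223.MT

open Vale.Agent.P223.H
open scoped unitInterval

theorem succAbove_comm {k : ℕ} (i j : Fin (k + 1)) (h : i ≤ j) (m : Fin k) :
    j.succ.succAbove (i.succAbove m) = i.castSucc.succAbove (j.succAbove m) := by
  rcases i with ⟨i, _⟩
  rcases j with ⟨j, _⟩
  rcases m with ⟨m, _⟩
  dsimp [Fin.succAbove]
  split_ifs <;> · simp at * <;> lia

theorem face_comp {k : ℕ} (i j : Fin (k + 1)) (h : i ≤ j) :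
    (H.face (k + 1) j.succ).comp (H.face k i) =
      (H.face (k + 1) i.castSucc).comp (H.face k j) := by
  refine ContinuousMap.ext fun z => ?_
  show stdSimplex.map _ (stdSimplex.map _ z) = stdSimplex.map _ (stdSimplex.map _ z)
  rw [stdSimplex.map_comp_apply, stdSimplex.map_comp_apply]
  congr 1
  exact funext fun m => succAbove_comm i j h m

theorem face_face {k : ℕ} (i j : Fin (k + 1)) (h : i ≤ j) (z : Dl k) :
    H.face (k + 1) j.succ (H.face k i z) = H.face (k + 1) i.castSucc (H.face k j z) :=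
  DFunLike.congr_fun (face_comp i j h) z

instance : IsEmpty (Dl 0) := ⟨fun x => by
  have h : ∑ i, x i = 1 := x.2.2
  simp at h⟩

/-- where two different faces meet -/
theorem match_face {k : ℕ} (i j : Fin (k + 2)) (hij : i < j) (y y' : Dl (k + 1))
    (h : H.face (k + 1) i y = H.face (k + 1) j y') :
    ∃ (i' j' : Fin (k + 1)) (z : Dl k), i' ≤ j' ∧ i = i'.castSucc ∧ j = j'.succ ∧
      y = H.face k j' z ∧ y' = H.face k i' z := by
  obtain ⟨i', rfl⟩ : ∃ i' : Fin (k + 1), i = i'.castSucc :=
    ⟨i.castPred (Fin.ne_last_of_lt hij), (Fin.castSucc_castPred _ _).symm⟩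
  obtain ⟨j', rfl⟩ : ∃ j' : Fin (k + 1), j = j'.succ :=
    ⟨j.pred (Fin.ne_zero_of_lt hij), (Fin.succ_pred _ _).symm⟩
  have hle : i' ≤ j' := by
    rw [Fin.le_def]
    have := Fin.lt_def.1 hij
    simp only [Fin.val_castSucc, Fin.val_succ] at this
    omega
  have h1 : y j' = 0 := by
    have e : i'.castSucc.succAbove j' = j'.succ := Fin.succAbove_castSucc_of_le _ _ hle
    rw [← face_succAbove (k + 1) i'.castSucc y j', e, h, face_self]
  have h2 : y' i' = 0 := by
    have e : j'.succ.succAbove i' = i'.castSucc := Fin.succAbove_succ_of_le _ _ hle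
    rw [← face_succAbove (k + 1) j'.succ y' i', e, ← h, face_self]
  have e1 := face_drop j' y h1
  have e2 := face_drop i' y' h2
  refine ⟨i', j', drop j' y h1, hle, rfl, rfl, e1.symm, ?_⟩
  rw [← e2, ← e1, face_face i' j' hle] at h
  have h3 := face_inj _ _ (face_inj _ _ h)
  rw [h3, e2]

/-- a family of functions on the faces which is compatible on the faces of faces is matching -/
theorem matching {k : ℕ} {T : Type*} (G : Fin (k + 2) → Dl (k + 1) → T)
    (h : ∀ i j : Fin (k + 1), i ≤ j → ∀ z, G i.castSucc (H.face k j z) = G j.succ (H.face k i z))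
    (i j : Fin (k + 2)) (y y' : Dl (k + 1)) (hy : H.face (k + 1) i y = H.face (k + 1) j y') :
    G i y = G j y' := by
  rcases lt_trichotomy i j with hij | hij | hij
  · obtain ⟨i', j', z, hle, rfl, rfl, rfl, rfl⟩ := match_face i j hij y y' hy
    exact h i' j' hle z
  · subst hij
    rw [face_inj _ _ hy]
  · obtain ⟨i', j', z, hle, rfl, rfl, rfl, rfl⟩ := match_face j i hij y' y hy.symm
    exact (h i' j' hle z).symm

variable {X : Type*} [TopologicalSpace X]

/-- Compatible systems of homotopies. -/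
theorem exists_system
    (P : ∀ k : ℕ, C(Dl (k + 1), X) → C(I × Dl (k + 1), X) → Prop)
    (base : ∀ s : C(Dl 1, X), ∃ K : C(I × Dl 1, X), (∀ x, K (0, x) = s x) ∧ P 0 s K)
    (step : ∀ (k : ℕ) (s : C(Dl (k + 2), X)) (G : Fin (k + 2) → C(I × Dl (k + 1), X)),
      (∀ i y, G i (0, y) = s (H.face (k + 1) i y)) →
      (∀ i j y y', H.face (k + 1) i y = H.face (k + 1) j y' → ∀ t, G i (t, y) = G j (t, y')) →
      (∀ i, P k (s.comp (H.face (k + 1) i)) (G i)) →
      ∃ K : C(I × Dl (k + 2), X), (∀ x, K (0, x) = s x) ∧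
        (∀ i t y, K (t, H.face (k + 1) i y) = G i (t, y)) ∧ P (k + 1) s K) :
    ∃ K : ∀ k : ℕ, C(Dl (k + 1), X) → C(I × Dl (k + 1), X),
      (∀ k s x, K k s (0, x) = s x) ∧
      (∀ k s i t y, K (k + 1) s (t, H.face (k + 1) i y) =
        K k (s.comp (H.face (k + 1) i)) (t, y)) ∧
      ∀ k s, P k s (K k s) := by
  classical
  let State : ℕ → Type _ := fun k => {K : C(Dl (k + 1), X) → C(I × Dl (k + 1), X) //
    (∀ s x, K s (0, x) = s x) ∧
    (∀ (s : C(Dl (k + 2), X)) (i j : Fin (k + 2)) (y y' : Dl (k + 1)),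
      H.face (k + 1) i y = H.face (k + 1) j y' →
      ∀ t, K (s.comp (H.face (k + 1) i)) (t, y) = K (s.comp (H.face (k + 1) j)) (t, y')) ∧
    ∀ s, P k s (K s)}
  have b : State 0 := by
    choose K hK hP using base
    refine ⟨K, hK, fun s i j y y' h t => ?_, hP⟩
    refine matching (T := X) (fun i y => K (s.comp (H.face (0 + 1) i)) (t, y)) ?_ i j y y' h
    intro i j _ z
    exact isEmptyElim z
  have nx : ∀ (k : ℕ) (A : State k), ∃ B : State (k + 1), ∀ s i t y,
      B.1 s (t, H.face (k + 1) i y) = A.1 (s.comp (H.face (k + 1) i)) (t, y) := by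
    rintro k ⟨A, hA0, hAm, hAP⟩
    choose K hK0 hKf hKP using fun s : C(Dl (k + 2), X) =>
      step k s (fun i => A (s.comp (H.face (k + 1) i))) (fun i y => hA0 _ _)
        (fun i j y y' h t => hAm s i j y y' h t) (fun i => hAP _)
    refine ⟨⟨K, hK0, fun s i j y y' h t => ?_, hKP⟩, fun s i t y => hKf s i t y⟩
    refine matching (T := X) (fun i y => K (s.comp (H.face (k + 2) i)) (t, y)) ?_ i j y y' h
    intro i j hij z
    show K (s.comp (H.face (k + 2) i.castSucc)) (t, H.face (k + 1) j z) =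
      K (s.comp (H.face (k + 2) j.succ)) (t, H.face (k + 1) i z)
    rw [hKf, hKf, ContinuousMap.comp_assoc, ContinuousMap.comp_assoc]
    rw [face_comp i j hij]
  choose N hN using nx
  let st : ∀ k, State k := fun k => Nat.rec b (fun k A => N k A) k
  refine ⟨fun k => (st k).1, fun k => (st k).2.1, fun k s i t y => ?_, fun k => (st k).2.2.2⟩
  exact hN k (st k) s i t y

end Vale.Agent.P223.MT
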