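import Vale.Agent.P223.MT.Spec
import Vale.Agent.P223.MT.Sys

/-! Blocks E (homotopy extension) and S (systems of homotopies). -/

namespace Vale.Agent.P223.MT.BlockES

open Vale.Agent.P223.H

/-- Block E. -/
theorem ext : SpecExt := by
  intro M _ k s G h0 hm
  obtain ⟨K, hK0, hKf⟩ := hep s G h0 fun i j y y' h t => hm i j t y y' h
  refine ⟨K, ContinuousMap.ext hK0, fun i => ContinuousMap.ext fun p => ?_⟩
  exact hKf i p.1 p.2

/-- the constant homotopy -/
def cst {M : Type} [TopologicalSpace M] {k : ℕ} (s : Simp k M) : Hom k M :=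
  ⟨fun p => s p.2, by fun_prop⟩

/-- Block S. -/
theorem sys : SpecSys := by
  intro M _ m w hw0 hwb
  obtain ⟨K, hK0, hKf, hKP⟩ := exists_system (X := M)
    (fun k s K => (k + 1 ≤ m → ∀ t x, K (t, x) = s x) ∧
      ∀ (ρ : Simp (m + 1) M), k = m → HEq s ρ → HEq K (w ρ))
    (by
      intro s
      rcases Nat.eq_zero_or_pos m with h | h
      · subst h
        refine ⟨w s, fun x => DFunLike.congr_fun (hw0 s) x, fun h => absurd h (by omega),
          fun ρ _ hρ => ?_⟩
        rw [eq_of_heq hρ]
      · exact ⟨cst s, fun x => rfl, fun _ t x => rfl, fun ρ h' => absurd h' (by omega)⟩)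
    (by
      intro k s G h0 hm hP
      rcases lt_trichotomy (k + 1) m with h | h | h
      · refine ⟨cst s, fun x => rfl, fun i t y => ?_, fun _ t x => rfl,
          fun ρ h' => absurd h' (by omega)⟩
        exact ((hP i).1 h.le t y).symm
      · subst h
        refine ⟨w s, fun x => DFunLike.congr_fun (hw0 s) x, fun i t y => ?_,
          fun h => absurd h (by omega), fun ρ _ hρ => ?_⟩
        · rw [hwb s t _ ⟨i, face_self _ i y⟩]
          exact ((hP i).1 le_rfl t y).symm
        · rw [eq_of_heq hρ]
      · obtain ⟨K, hK0, hKf⟩ := hep s G h0 hm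
        exact ⟨K, hK0, hKf, fun h' => absurd h' (by omega), fun ρ h' => absurd h' (by omega)⟩)
  refine ⟨⟨fun k => match k with
      | 0 => cst
      | k + 1 => K k, ?_, ?_⟩, ?_, ?_⟩
  · intro k s
    match k with
    | 0 => exact ContinuousMap.ext fun x => rfl
    | k + 1 => exact ContinuousMap.ext fun x => hK0 k s x
  · intro k s i
    match k with
    | 0 => exact ContinuousMap.ext fun p => isEmptyElim p.2
    | k + 1 => exact ContinuousMap.ext fun p => hKf k s i p.1 p.2
  · intro k hk s t x
    match k with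
    | 0 => exact isEmptyElim x
    | k + 1 => exact (hKP k s).1 hk t x
  · intro ρ
    exact eq_of_heq ((hKP m ρ).2 ρ rfl HEq.rfl)

end Vale.Agent.P223.MT.BlockES
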