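import Mathlib.AlgebraicTopology.FundamentalGroupoid.InducedMaps
import Mathlib.Topology.Homotopy.Product

/-! Abstract Eckmann-Hilton argument: loops commute in a space with a multiplication which is
freely homotopic to the identity in each variable. -/

namespace Vale.Agent.P223.MT.Comm

open CategoryTheory

theorem alg {G : Type*} [Groupoid G] {y c : G} (w1 w2 : y ⟶ c) (f1 f2 : (y ⟶ y) → (c ⟶ c))
    (h1 : ∀ a, a ≫ w1 = w1 ≫ f1 a) (h2 : ∀ a, a ≫ w2 = w2 ≫ f2 a)
    (hc : ∀ a b, f1 a ≫ f2 b = f2 b ≫ f1 a) (a b : y ⟶ y) : a ≫ b = b ≫ a := by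
  have e1 : ∀ a, f1 a = Groupoid.inv w1 ≫ a ≫ w1 := fun a => by rw [h1]; simp
  have e2 : ∀ a, f2 a = Groupoid.inv w2 ≫ a ≫ w2 := fun a => by rw [h2]; simp
  have key : f2 (w2 ≫ Groupoid.inv w1 ≫ b ≫ w1 ≫ Groupoid.inv w2) = f1 b := by
    rw [e2, e1]; simp
  have h3 := hc a (w2 ≫ Groupoid.inv w1 ≫ b ≫ w1 ≫ Groupoid.inv w2)
  rw [key, e1, e1] at h3
  have h4 := congrArg (fun q => w1 ≫ q ≫ Groupoid.inv w1) h3
  simpa using h4

variable {Y : Type*} [TopologicalSpace Y]

/-- The inclusion of the first factor. -/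
def in1 (y0 : Y) : C(Y, Y × Y) := ⟨fun y => (y, y0), by fun_prop⟩

/-- The inclusion of the second factor. -/
def in2 (y0 : Y) : C(Y, Y × Y) := ⟨fun y => (y0, y), by fun_prop⟩

theorem prod_comm {y0 : Y} (p q : Path y0 y0) :
    (((p.prod (Path.refl y0)).trans ((Path.refl y0).prod q) : Path (y0, y0) (y0, y0))).Homotopic
      (((Path.refl y0).prod q).trans (p.prod (Path.refl y0))) := by
  rw [Path.trans_prod_eq_prod_trans, Path.trans_prod_eq_prod_trans]
  exact ⟨Path.Homotopic.prodHomotopy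
    ((Path.Homotopy.transRefl p).trans (Path.Homotopy.reflTrans p).symm)
    ((Path.Homotopy.reflTrans q).trans (Path.Homotopy.transRefl q).symm)⟩

/-- The image of a loop under the multiplication by the base point. -/
def M1 (μ : C(Y × Y, Y)) {y0 : Y} (p : Path y0 y0) : Path (μ (y0, y0)) (μ (y0, y0)) :=
  p.map (μ.comp (in1 y0)).continuous

/-- The image of a loop under the multiplication by the base point. -/
def M2 (μ : C(Y × Y, Y)) {y0 : Y} (p : Path y0 y0) : Path (μ (y0, y0)) (μ (y0, y0)) :=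
  p.map (μ.comp (in2 y0)).continuous

theorem M_comm (μ : C(Y × Y, Y)) {y0 : Y} (p q : Path y0 y0) :
    ((M1 μ p).trans (M2 μ q)).Homotopic ((M2 μ q).trans (M1 μ p)) := by
  have := (prod_comm p q).map μ
  rw [Path.map_trans, Path.map_trans] at this
  exact this

theorem comm (y0 : Y) (μ : C(Y × Y, Y))
    (H1 : ContinuousMap.Homotopy (ContinuousMap.id Y) (μ.comp (in1 y0)))
    (H2 : ContinuousMap.Homotopy (ContinuousMap.id Y) (μ.comp (in2 y0)))
    (p q : Path y0 y0) : (p.trans q).Homotopic (q.trans p) := by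
  let W1 : Path y0 (μ (y0, y0)) := H1.evalAt y0
  let W2 : Path y0 (μ (y0, y0)) := H2.evalAt y0
  have h1 : ∀ a : Path y0 y0, (a.trans W1).Homotopic (W1.trans (M1 μ a)) := fun a => by
    have := Path.Homotopic.map_trans_evalAt H1 a
    rw [show a.map (ContinuousMap.id Y).continuous = a by ext; rfl] at this
    exact this
  have h2 : ∀ a : Path y0 y0, (a.trans W2).Homotopic (W2.trans (M2 μ a)) := fun a => by
    have := Path.Homotopic.map_trans_evalAt H2 a
    rw [show a.map (ContinuousMap.id Y).continuous = a by ext; rfl] at this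
    exact this
  let X0 : FundamentalGroupoid Y := ⟨y0⟩
  let X1 : FundamentalGroupoid Y := ⟨μ (y0, y0)⟩
  let w1 : X0 ⟶ X1 := Path.Homotopic.Quotient.mk W1
  let w2 : X0 ⟶ X1 := Path.Homotopic.Quotient.mk W2
  let f1 : (X0 ⟶ X0) → (X1 ⟶ X1) := fun a => Path.Homotopic.Quotient.map a (μ.comp (in1 y0))
  let f2 : (X0 ⟶ X0) → (X1 ⟶ X1) := fun a => Path.Homotopic.Quotient.map a (μ.comp (in2 y0))
  have key := alg (G := FundamentalGroupoid Y) w1 w2 f1 f2 (fun a => by
      obtain ⟨a, rfl⟩ := Path.Homotopic.Quotient.mk_surjective a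
      exact Path.Homotopic.Quotient.eq.mpr (h1 a)) (fun a => by
      obtain ⟨a, rfl⟩ := Path.Homotopic.Quotient.mk_surjective a
      exact Path.Homotopic.Quotient.eq.mpr (h2 a)) (fun a b => by
      obtain ⟨a, rfl⟩ := Path.Homotopic.Quotient.mk_surjective a
      obtain ⟨b, rfl⟩ := Path.Homotopic.Quotient.mk_surjective b
      exact Path.Homotopic.Quotient.eq.mpr (M_comm μ a b))
    (Path.Homotopic.Quotient.mk p) (Path.Homotopic.Quotient.mk q)
  exact Path.Homotopic.Quotient.eq.mp key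

end Vale.Agent.P223.MT.Comm
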