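import Vale.Agent.P223.MT.Basic
import Vale.Agent.P223.MT.CommA

/-! Block C: loops in the space of simplices with given boundary commute. -/

namespace Vale.Agent.P223.MT.Comm

open H (Simp)

/-- The standard simplex. -/
abbrev S (k : ℕ) := stdSimplex ℝ (Fin k)

theorem coord_continuous {k : ℕ} (i : Fin k) : Continuous fun x : S k => x i :=
  (continuous_apply i).comp continuous_subtype_val

/-- Convex combinations. -/
noncomputable def mix (k : ℕ) : C(I × (S k × S k), S k) where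
  toFun q := ⟨fun i => (1 - (q.1 : ℝ)) * q.2.1 i + (q.1 : ℝ) * q.2.2 i,
    fun i => add_nonneg (mul_nonneg (sub_nonneg.mpr q.1.2.2) (stdSimplex.zero_le _ _))
      (mul_nonneg q.1.2.1 (stdSimplex.zero_le _ _)), by
      rw [Finset.sum_add_distrib, ← Finset.mul_sum, ← Finset.mul_sum,
        stdSimplex.sum_eq_one, stdSimplex.sum_eq_one]
      ring⟩
  continuous_toFun := by
    refine Continuous.subtype_mk (continuous_pi fun i => ?_) _
    have h1 : Continuous fun q : I × (S k × S k) => q.2.1 i :=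
      (coord_continuous i).comp (continuous_fst.comp continuous_snd)
    have h2 : Continuous fun q : I × (S k × S k) => q.2.2 i :=
      (coord_continuous i).comp (continuous_snd.comp continuous_snd)
    fun_prop

theorem mix_apply {k : ℕ} (s : I) (x y : S k) (i : Fin k) :
    mix k (s, x, y) i = (1 - (s : ℝ)) * x i + (s : ℝ) * y i := rfl

theorem mix_zero {k : ℕ} (x y : S k) : mix k (0, x, y) = x := by
  ext i
  change mix k (0, x, y) i = x i
  rw [mix_apply]; simp

theorem mix_one {k : ℕ} (x y : S k) : mix k (1, x, y) = y := by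
  ext i
  change mix k (1, x, y) i = y i
  rw [mix_apply]; simp

theorem mix_self {k : ℕ} (s : I) (x : S k) : mix k (s, x, x) = x := by
  ext i
  change mix k (s, x, x) i = x i
  rw [mix_apply]; ring

/-- The gauge of the simplex with respect to an interior point. -/
noncomputable def gau {m : ℕ} (p : Fin (m + 1) → ℝ) (x : S (m + 1)) : ℝ :=
  Finset.univ.sup' Finset.univ_nonempty fun i => 1 - x i / p i

theorem le_gau {m : ℕ} (p : Fin (m + 1) → ℝ) (x : S (m + 1)) (i : Fin (m + 1)) :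
    1 - x i / p i ≤ gau p x :=
  Finset.le_sup' (fun i => 1 - x i / p i) (Finset.mem_univ i)

theorem exists_gau {m : ℕ} (p : Fin (m + 1) → ℝ) (x : S (m + 1)) :
    ∃ i, gau p x = 1 - x i / p i := by
  obtain ⟨i, -, hi⟩ := Finset.exists_mem_eq_sup' Finset.univ_nonempty
    (fun i : Fin (m + 1) => 1 - x i / p i)
  exact ⟨i, hi⟩

theorem gau_continuous {m : ℕ} (p : Fin (m + 1) → ℝ) : Continuous (gau p) := by
  unfold gau
  refine Continuous.finset_sup'_apply _ fun i _ => ?_
  exact continuous_const.sub ((coord_continuous i).div_const _)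

theorem gau_le_one {m : ℕ} (p : Fin (m + 1) → ℝ) (hp : ∀ i, 0 < p i) (x : S (m + 1)) :
    gau p x ≤ 1 := by
  obtain ⟨i, hi⟩ := exists_gau p x
  rw [hi]
  have := div_nonneg (stdSimplex.zero_le x i) (hp i).le
  linarith

/-- The radial expansion from the interior point `p`. -/
noncomputable def lam {m : ℕ} (p : Fin (m + 1) → ℝ) (hp : ∀ i, 0 < p i) (hs : ∑ i, p i = 1) :
    C(S (m + 1), S (m + 1)) where
  toFun x := ⟨fun i => p i + (x i - p i) / max (gau p x) (1 / 5), fun i => by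
    have hD : 0 < max (gau p x) (1 / 5 : ℝ) := lt_max_of_lt_right (by norm_num)
    have h1 : 1 - x i / p i ≤ max (gau p x) (1 / 5) := (le_gau p x i).trans (le_max_left _ _)
    have h2 : p i - x i ≤ p i * max (gau p x) (1 / 5) := by
      have := mul_le_mul_of_nonneg_left h1 (hp i).le
      rwa [mul_sub, mul_one, mul_div_cancel₀ _ (hp i).ne'] at this
    have h3 : -p i ≤ (x i - p i) / max (gau p x) (1 / 5) := by
      rw [le_div_iff₀ hD]
      linarith
    show 0 ≤ p i + (x i - p i) / max (gau p x) (1 / 5)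
    linarith, by
    show ∑ i, (p i + (x i - p i) / max (gau p x) (1 / 5)) = 1
    rw [Finset.sum_add_distrib, ← Finset.sum_div, Finset.sum_sub_distrib, hs,
      stdSimplex.sum_eq_one]
    simp⟩
  continuous_toFun := by
    refine Continuous.subtype_mk (continuous_pi fun i => ?_) _
    refine continuous_const.add (((coord_continuous i).sub continuous_const).div
      ((gau_continuous p).max continuous_const) fun x => ?_)
    exact (lt_max_of_lt_right (by norm_num : (0 : ℝ) < 1 / 5)).ne'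

theorem lam_apply {m : ℕ} (p : Fin (m + 1) → ℝ) (hp : ∀ i, 0 < p i) (hs : ∑ i, p i = 1)
    (x : S (m + 1)) (i : Fin (m + 1)) :
    lam p hp hs x i = p i + (x i - p i) / max (gau p x) (1 / 5) := rfl

theorem lam_mem {m : ℕ} (p : Fin (m + 1) → ℝ) (hp : ∀ i, 0 < p i) (hs : ∑ i, p i = 1)
    (x : S (m + 1)) (h : 1 / 5 ≤ gau p x) : lam p hp hs x ∈ bdry (m + 1) := by
  obtain ⟨i, hi⟩ := exists_gau p x
  refine ⟨i, ?_⟩
  rw [lam_apply, max_eq_left h]
  have h0 : gau p x ≠ 0 := by linarith [h] |> fun (h' : 0 < gau p x) => h'.ne'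
  have h1 : x i - p i = -p i * gau p x := by
    rw [hi]
    field_simp [(hp i).ne']
    ring
  rw [h1, mul_div_assoc, div_self h0]
  ring

theorem lam_bdry {m : ℕ} (p : Fin (m + 1) → ℝ) (hp : ∀ i, 0 < p i) (hs : ∑ i, p i = 1)
    (x : S (m + 1)) (h : x ∈ bdry (m + 1)) : lam p hp hs x = x := by
  obtain ⟨i, hi⟩ := h
  have h1 : gau p x = 1 := le_antisymm (gau_le_one p hp x) (by
    have := le_gau p x i
    rwa [hi, zero_div, sub_zero] at this)
  ext j
  change lam p hp hs x j = x j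
  rw [lam_apply, h1, max_eq_left (by norm_num)]
  ring

/-- The two expansions. -/
theorem exists_two {m : ℕ} (hm : 1 ≤ m) : ∃ LL LR : C(S (m + 1), S (m + 1)),
    (∀ x ∈ bdry (m + 1), LL x = x) ∧ (∀ x : S (m + 1), 1 / 3 ≤ x 0 → LL x ∈ bdry (m + 1)) ∧
    (∀ x ∈ bdry (m + 1), LR x = x) ∧ ∀ x : S (m + 1), x 0 ≤ 2 / 3 → LR x ∈ bdry (m + 1) := by
  have hm0 : (0 : ℝ) < m := by exact_mod_cast hm
  let q : ℝ → Fin (m + 1) → ℝ := fun r => Fin.cons r fun _ => (1 - r) / m
  have q0 : ∀ r, q r 0 = r := fun r => rfl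
  have qs : ∀ r (i : Fin m), q r i.succ = (1 - r) / m := fun r i => rfl
  have hq : ∀ r, 0 < r → r < 1 → ∀ i, 0 < q r i := by
    intro r h0 h1 i
    refine Fin.cases (by rw [q0]; exact h0) (fun i => ?_) i
    rw [qs]
    exact div_pos (by linarith) hm0
  have hqs : ∀ r, ∑ i, q r i = 1 := by
    intro r
    rw [Fin.sum_univ_succ, q0]
    simp only [qs]
    rw [Finset.sum_const, Finset.card_univ, Fintype.card_fin, nsmul_eq_mul,
      mul_div_cancel₀ _ hm0.ne']
    ring
  have h6 : ∀ x : S (m + 1), 1 / 3 ≤ x 0 → 1 / 5 ≤ gau (q (1 / 6)) x := by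
    intro x hx
    have h1 : ∀ i : Fin m, (1 - gau (q (1 / 6)) x) * ((1 - 1 / 6) / m) ≤ x i.succ := by
      intro i
      have h2 := le_gau (q (1 / 6)) x i.succ
      have h3 : 0 < q (1 / 6) i.succ := hq _ (by norm_num) (by norm_num) _
      rw [qs] at h2 h3
      have h4 : (1 - gau (q (1 / 6)) x) ≤ x i.succ / ((1 - 1 / 6) / m) := by linarith
      exact (le_div_iff₀ h3).mp h4
    have h2 := Finset.sum_le_sum fun (i : Fin m) (_ : i ∈ Finset.univ) => h1 i
    rw [Finset.sum_const, Finset.card_univ, Fintype.card_fin, nsmul_eq_mul] at h2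
    have h3 := stdSimplex.sum_eq_one x
    rw [Fin.sum_univ_succ] at h3
    have h4 : (m : ℝ) * ((1 - gau (q (1 / 6)) x) * ((1 - 1 / 6) / m)) =
        (1 - gau (q (1 / 6)) x) * (5 / 6) := by
      field_simp
      ring
    rw [h4] at h2
    linarith
  have h56 : ∀ x : S (m + 1), x 0 ≤ 2 / 3 → 1 / 5 ≤ gau (q (5 / 6)) x := by
    intro x hx
    have h1 := le_gau (q (5 / 6)) x 0
    rw [q0] at h1
    have h2 : x 0 / (5 / 6) ≤ 4 / 5 := by
      rw [div_le_iff₀ (by norm_num)]
      linarith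
    linarith
  refine ⟨lam (q (1 / 6)) (hq _ (by norm_num) (by norm_num)) (hqs _),
    lam (q (5 / 6)) (hq _ (by norm_num) (by norm_num)) (hqs _),
    fun x hx => lam_bdry _ _ _ x hx, fun x hx => lam_mem _ _ _ x (h6 x hx),
    fun x hx => lam_bdry _ _ _ x hx, fun x hx => lam_mem _ _ _ x (h56 x hx)⟩

/-- The cut function. -/
noncomputable def cut (m : ℕ) : C(S (m + 1), I) where
  toFun x := Set.projIcc (0 : ℝ) 1 zero_le_one (3 * x 0 - 1)
  continuous_toFun := continuous_projIcc.comp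
    ((continuous_const.mul (coord_continuous 0)).sub continuous_const)

theorem cut_zero {m : ℕ} (x : S (m + 1)) (h : x 0 ≤ 1 / 3) : cut m x = 0 :=
  Set.projIcc_of_le_left zero_le_one (by linarith)

theorem cut_one {m : ℕ} (x : S (m + 1)) (h : 2 / 3 ≤ x 0) : cut m x = 1 :=
  Set.projIcc_of_right_le zero_le_one (by linarith)

section
variable {M : Type} [TopologicalSpace M] {m : ℕ} {ρ : Simp (m + 1) M}

/-- Glueing of two families of simplices with the same boundary as `ρ`. -/
theorem glue {T : Type} [TopologicalSpace T] (a b : C(T, YY ρ)) (A : C(T × S (m + 1), S (m + 1)))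
    (hA : ∀ t, ∀ x ∈ bdry (m + 1), A (t, x) = x)
    (ha : ∀ t (x : S (m + 1)), x 0 = 1 / 3 → A (t, x) ∈ bdry (m + 1) ∨ a t = YY.base ρ)
    (hb : ∀ t (x : S (m + 1)), x 0 = 2 / 3 → A (t, x) ∈ bdry (m + 1) ∨ b t = YY.base ρ) :
    ∃ G : C(T, YY ρ), ∀ t x, (G t).1 x = if x 0 ≤ 1 / 3 then (a t).1 (A (t, x)) else
      if x 0 ≤ 2 / 3 then ρ (A (t, x)) else (b t).1 (A (t, x)) := by
  have hc0 : Continuous fun q : T × S (m + 1) => q.2 0 := (coord_continuous 0).comp continuous_snd
  have hca : Continuous fun q : T × S (m + 1) => (a q.1).1 (A q) := by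
    fun_prop
  have hcb : Continuous fun q : T × S (m + 1) => (b q.1).1 (A q) := by
    fun_prop
  have hcr : Continuous fun q : T × S (m + 1) => ρ (A q) := by
    fun_prop
  have hF : Continuous fun q : T × S (m + 1) => if q.2 0 ≤ 1 / 3 then (a q.1).1 (A q) else
      if q.2 0 ≤ 2 / 3 then ρ (A q) else (b q.1).1 (A q) := by
    refine Continuous.if_le hca (Continuous.if_le hcr hcb hc0 continuous_const ?_) hc0
      continuous_const ?_
    · rintro ⟨t, x⟩ hx
      rcases hb t x hx with h | h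
      · exact ((b t).2 _ h).symm
      · show ρ (A (t, x)) = (b t).1 (A (t, x))
        rw [h]
    · rintro ⟨t, x⟩ hx
      have hx' : x 0 = 1 / 3 := hx
      have h1 : x 0 ≤ 2 / 3 := by rw [hx']; norm_num
      show (a t).1 (A (t, x)) = if x 0 ≤ 2 / 3 then ρ (A (t, x)) else (b t).1 (A (t, x))
      rw [if_pos h1]
      rcases ha t x hx with h | h
      · exact (a t).2 _ h
      · rw [h]
  let F : C(T × S (m + 1), M) := ⟨_, hF⟩
  have hmem : ∀ t, ∀ x ∈ bdry (m + 1), F.curry t x = ρ x := by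
    intro t x hx
    show (if x 0 ≤ 1 / 3 then (a t).1 (A (t, x)) else
      if x 0 ≤ 2 / 3 then ρ (A (t, x)) else (b t).1 (A (t, x))) = ρ x
    rw [hA t x hx, (a t).2 x hx, (b t).2 x hx]
    split_ifs <;> rfl
  exact ⟨⟨fun t => ⟨F.curry t, hmem t⟩, F.curry.continuous.subtype_mk _⟩, fun t x => rfl⟩

/-- Precomposition. -/
theorem precomp {T : Type} [TopologicalSpace T] (a : C(T, YY ρ))
    (A : C(T × S (m + 1), S (m + 1))) (hA : ∀ t, ∀ x ∈ bdry (m + 1), A (t, x) = x) :
    ∃ G : C(T, YY ρ), ∀ t x, (G t).1 x = (a t).1 (A (t, x)) := by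
  have hca : Continuous fun q : T × S (m + 1) => (a q.1).1 (A q) := by
    fun_prop
  let F : C(T × S (m + 1), M) := ⟨_, hca⟩
  have hmem : ∀ t, ∀ x ∈ bdry (m + 1), F.curry t x = ρ x := by
    intro t x hx
    show (a t).1 (A (t, x)) = ρ x
    rw [hA t x hx, (a t).2 x hx]
  exact ⟨⟨fun t => ⟨F.curry t, hmem t⟩, F.curry.continuous.subtype_mk _⟩, fun t x => rfl⟩

theorem YY_ext {y z : YY ρ} (h : ∀ x, y.1 x = z.1 x) : y = z :=
  Subtype.ext (ContinuousMap.ext h)

theorem exists_mul (hm : 1 ≤ m) : ∃ μ : C(YY ρ × YY ρ, YY ρ),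
    Nonempty (ContinuousMap.Homotopy (ContinuousMap.id (YY ρ)) (μ.comp (in1 (YY.base ρ)))) ∧
    Nonempty (ContinuousMap.Homotopy (ContinuousMap.id (YY ρ)) (μ.comp (in2 (YY.base ρ)))) := by
  obtain ⟨LL, LR, hL1, hL2, hR1, hR2⟩ := exists_two hm
  -- the homotopies from the identity to the expansions
  have hid : ∀ L : C(S (m + 1), S (m + 1)), (∀ x ∈ bdry (m + 1), L x = x) →
      ∃ G : C(I × YY ρ, YY ρ), ∀ t x, (G t).1 x = t.2.1 (mix _ (t.1, x, L x)) := by
    intro L hL
    refine precomp (T := I × YY ρ) ⟨fun t => t.2, by fun_prop⟩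
      ⟨fun q => mix _ (q.1.1, q.2, L q.2), by fun_prop⟩ ?_
    rintro t x hx
    show mix _ (t.1, x, L x) = x
    rw [hL x hx, mix_self]
  obtain ⟨KL, hKL⟩ := hid LL hL1
  obtain ⟨KR, hKR⟩ := hid LR hR1
  have hAb : ∀ (s : I) (x : S (m + 1)), x ∈ bdry (m + 1) → mix _ (s, LL x, LR x) = x := by
    intro s x hx
    rw [hL1 x hx, hR1 x hx, mix_self]
  obtain ⟨μ, hμ⟩ := glue (T := YY ρ × YY ρ) (ρ := ρ) ⟨fun t => t.1, by fun_prop⟩
    ⟨fun t => t.2, by fun_prop⟩ ⟨fun q => mix _ (cut m q.2, LL q.2, LR q.2), by fun_prop⟩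
    (fun t x hx => hAb _ x hx)
    (fun t x hx => Or.inl (by
      show mix _ (cut m x, LL x, LR x) ∈ bdry (m + 1)
      rw [cut_zero x hx.le, mix_zero]
      exact hL2 x hx.ge))
    (fun t x hx => Or.inl (by
      show mix _ (cut m x, LL x, LR x) ∈ bdry (m + 1)
      rw [cut_one x hx.ge, mix_one]
      exact hR2 x hx.le))
  obtain ⟨K1, hK1⟩ := glue (T := I × YY ρ) (ρ := ρ) ⟨fun t => t.2, by fun_prop⟩
    ⟨fun _ => YY.base ρ, by fun_prop⟩
    ⟨fun q => mix _ (q.1.1 * cut m q.2, LL q.2, LR q.2), by fun_prop⟩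
    (fun t x hx => hAb _ x hx)
    (fun t x hx => Or.inl (by
      show mix _ (t.1 * cut m x, LL x, LR x) ∈ bdry (m + 1)
      rw [cut_zero x hx.le, mul_zero, mix_zero]
      exact hL2 x hx.ge))
    (fun t x hx => Or.inr rfl)
  obtain ⟨K2, hK2⟩ := glue (T := I × YY ρ) (ρ := ρ) ⟨fun _ => YY.base ρ, by fun_prop⟩
    ⟨fun t => t.2, by fun_prop⟩
    ⟨fun q => mix _ (unitInterval.symm (q.1.1 * unitInterval.symm (cut m q.2)), LL q.2, LR q.2),
      by fun_prop⟩
    (fun t x hx => hAb _ x hx)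
    (fun t x hx => Or.inr rfl)
    (fun t x hx => Or.inl (by
      show mix _ (unitInterval.symm (t.1 * unitInterval.symm (cut m x)), LL x, LR x) ∈
        bdry (m + 1)
      rw [cut_one x hx.ge, unitInterval.symm_one, mul_zero, unitInterval.symm_zero, mix_one]
      exact hR2 x hx.le))
  refine ⟨μ, ⟨?_⟩, ⟨?_⟩⟩
  · refine ContinuousMap.Homotopy.trans (f₁ := ⟨fun y => KL (1, y), by fun_prop⟩)
      ⟨KL, fun y => YY_ext fun x => ?_, fun y => rfl⟩
      ⟨K1, fun y => YY_ext fun x => ?_, fun y => YY_ext fun x => ?_⟩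
    · show (KL (0, y)).1 x = y.1 x
      rw [hKL, mix_zero]
    · show (K1 (0, y)).1 x = (KL (1, y)).1 x
      rw [hKL, hK1, mix_one]
      show (if x 0 ≤ 1 / 3 then y.1 (mix _ (0 * cut m x, LL x, LR x)) else
        if x 0 ≤ 2 / 3 then ρ (mix _ (0 * cut m x, LL x, LR x)) else
          ρ (mix _ (0 * cut m x, LL x, LR x))) = y.1 (LL x)
      rw [zero_mul, mix_zero]
      split_ifs with h1 h2
      · rfl
      · exact (y.2 _ (hL2 x (not_le.mp h1).le)).symm
      · exact (y.2 _ (hL2 x (not_le.mp h1).le)).symm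
    · show (K1 (1, y)).1 x = (μ (y, YY.base ρ)).1 x
      rw [hμ, hK1]
      show (if x 0 ≤ 1 / 3 then y.1 (mix _ (1 * cut m x, LL x, LR x)) else
        if x 0 ≤ 2 / 3 then ρ (mix _ (1 * cut m x, LL x, LR x)) else
          ρ (mix _ (1 * cut m x, LL x, LR x))) = _
      rw [one_mul]
      rfl
  · refine ContinuousMap.Homotopy.trans (f₁ := ⟨fun y => KR (1, y), by fun_prop⟩)
      ⟨KR, fun y => YY_ext fun x => ?_, fun y => rfl⟩
      ⟨K2, fun y => YY_ext fun x => ?_, fun y => YY_ext fun x => ?_⟩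
    · show (KR (0, y)).1 x = y.1 x
      rw [hKR, mix_zero]
    · show (K2 (0, y)).1 x = (KR (1, y)).1 x
      rw [hKR, hK2, mix_one]
      show (if x 0 ≤ 1 / 3 then ρ (mix _ (unitInterval.symm (0 * unitInterval.symm (cut m x)),
          LL x, LR x)) else
        if x 0 ≤ 2 / 3 then ρ (mix _ (unitInterval.symm (0 * unitInterval.symm (cut m x)),
          LL x, LR x)) else
          y.1 (mix _ (unitInterval.symm (0 * unitInterval.symm (cut m x)),
          LL x, LR x))) = y.1 (LR x)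
      rw [zero_mul, unitInterval.symm_zero, mix_one]
      split_ifs with h1 h2
      · exact (y.2 _ (hR2 x (h1.trans (by norm_num)))).symm
      · exact (y.2 _ (hR2 x h2)).symm
      · rfl
    · show (K2 (1, y)).1 x = (μ (YY.base ρ, y)).1 x
      rw [hμ, hK2]
      show (if x 0 ≤ 1 / 3 then ρ (mix _ (unitInterval.symm (1 * unitInterval.symm (cut m x)),
          LL x, LR x)) else
        if x 0 ≤ 2 / 3 then ρ (mix _ (unitInterval.symm (1 * unitInterval.symm (cut m x)),
          LL x, LR x)) else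
          y.1 (mix _ (unitInterval.symm (1 * unitInterval.symm (cut m x)),
          LL x, LR x))) = _
      rw [one_mul, unitInterval.symm_symm]
      rfl

end

/-- Block C. -/
theorem main : SpecComm := by
  intro M _ m hm ρ p q
  obtain ⟨μ, ⟨H1⟩, ⟨H2⟩⟩ := exists_mul (M := M) (ρ := ρ) hm
  exact comm (YY.base ρ) μ H1 H2 p q

end Vale.Agent.P223.MT.Comm
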