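import Vale.Agent.P223.MT.Spec
import Mathlib.Analysis.Convex.Cone.Extension

/-! Block D (duality, Hahn-Banach). -/

namespace Vale.Agent.P223.MT.D

open H (Simp Chain face bd l1)

variable {M : Type} [TopologicalSpace M] {k n : ℕ}

theorem l1_add (z z' : Chain k M) : l1 (z + z') ≤ l1 z + l1 z' := by
  classical
  unfold l1
  rw [Finsupp.sum_of_support_subset (s := z.support ∪ z'.support) _ Finsupp.support_add _
    (by simp), Finsupp.sum_of_support_subset z (s := z.support ∪ z'.support)
    Finset.subset_union_left _ (by simp), Finsupp.sum_of_support_subset z'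
    (s := z.support ∪ z'.support) Finset.subset_union_right _ (by simp), ← Finset.sum_add_distrib]
  exact Finset.sum_le_sum fun σ _ => by
    rw [Finsupp.add_apply]; exact abs_add_le _ _

theorem l1_single (σ : Simp k M) (a : ℝ) : l1 (Finsupp.single σ a) = |a| := by
  unfold l1
  rw [Finsupp.sum_single_index (by simp)]

theorem l1_zero : l1 (0 : Chain k M) = 0 := by
  unfold l1
  simp

theorem l1_nonneg (z : Chain k M) : 0 ≤ l1 z := Finset.sum_nonneg fun _ _ => abs_nonneg _

theorem l1_smul {r : ℝ} (hr : 0 < r) (z : Chain k M) : l1 (r • z) = r * l1 z := by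
  unfold l1
  rw [Finsupp.sum_smul_index (by simp), Finsupp.mul_sum]
  refine Finsupp.sum_congr fun σ _ => ?_
  rw [abs_mul, abs_of_pos hr]

/-- The quotient seminorm. -/
noncomputable def p (n : ℕ) (y : Chain (n + 1) M) : ℝ :=
  ⨅ w : Chain (n + 2) M, l1 (y + bd (n + 1) w)

theorem bdd (y : Chain (n + 1) M) :
    BddBelow (Set.range fun w : Chain (n + 2) M => l1 (y + bd (n + 1) w)) :=
  ⟨0, by rintro _ ⟨w, rfl⟩; exact l1_nonneg _⟩

theorem p_le (y : Chain (n + 1) M) (w : Chain (n + 2) M) : p n y ≤ l1 (y + bd (n + 1) w) :=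
  ciInf_le (bdd y) w

theorem p_nonneg (y : Chain (n + 1) M) : 0 ≤ p n y := le_ciInf fun _ => l1_nonneg _

theorem p_add (x y : Chain (n + 1) M) : p n (x + y) ≤ p n x + p n y := by
  refine le_of_forall_pos_lt_add fun ε hε => ?_
  obtain ⟨w, hw⟩ := exists_lt_of_ciInf_lt
    (f := fun w : Chain (n + 2) M => l1 (x + bd (n + 1) w)) (a := p n x + ε / 2)
    (by show p n x < _; linarith)
  obtain ⟨w', hw'⟩ := exists_lt_of_ciInf_lt
    (f := fun w : Chain (n + 2) M => l1 (y + bd (n + 1) w)) (a := p n y + ε / 2)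
    (by show p n y < _; linarith)
  have h1 := p_le (x + y) (w + w')
  have h2 : x + y + bd (n + 1) (w + w') = (x + bd (n + 1) w) + (y + bd (n + 1) w') := by
    rw [map_add]; abel
  rw [h2] at h1
  have h3 := l1_add (x + bd (n + 1) w) (y + bd (n + 1) w')
  linarith

theorem p_smul (r : ℝ) (hr : 0 < r) (x : Chain (n + 1) M) : p n (r • x) = r * p n x := by
  have key : ∀ (r : ℝ), 0 < r → ∀ x : Chain (n + 1) M, p n (r • x) ≤ r * p n x := by
    intro r hr x
    unfold p
    rw [Real.mul_iInf_of_nonneg hr.le]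
    refine le_ciInf fun w => ?_
    refine (p_le (r • x) (r • w)).trans_eq ?_
    rw [map_smul, ← smul_add, l1_smul hr]
  refine le_antisymm (key r hr x) ?_
  have h := key r⁻¹ (inv_pos.2 hr) (r • x)
  rw [smul_smul, inv_mul_cancel₀ hr.ne', one_smul] at h
  calc r * p n x ≤ r * (r⁻¹ * p n (r • x)) := mul_le_mul_of_nonneg_left h hr.le
    _ = p n (r • x) := by rw [← mul_assoc, mul_inv_cancel₀ hr.ne', one_mul]

theorem p_bd (w : Chain (n + 2) M) : p n (bd (n + 1) w) ≤ 0 := by
  refine (p_le _ (-w)).trans_eq ?_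
  rw [map_neg, add_neg_cancel, l1_zero]

theorem main : SpecDual := by
  intro M _ n z B hB δ hδ
  have hB0 : 0 ≤ B := by
    have := hB 0 (fun σ => by simp) (fun w => by simp)
    simpa using this
  by_cases hz : z = 0
  · refine ⟨0, ?_⟩
    rw [hz, map_zero, add_zero, l1_zero]
    linarith
  have hp : p n z ≤ B := by
    let f : Chain (n + 1) M →ₗ.[ℝ] ℝ := LinearPMap.mkSpanSingleton z (p n z) hz
    obtain ⟨c, hc, hcp⟩ := exists_extension_of_le_sublinear f (p n) p_smul p_add (by
      rintro ⟨x, hx⟩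
      obtain ⟨r, rfl⟩ := Submodule.mem_span_singleton.1 hx
      have e : f ⟨r • z, hx⟩ = r • p n z := LinearPMap.mkSpanSingleton'_apply _ _ _ _ _
      rw [e, smul_eq_mul]
      show r * p n z ≤ p n (r • z)
      rcases lt_trichotomy r 0 with hr | hr | hr
      · have h1 := p_nonneg (n := n) (r • z)
        have h2 := p_nonneg (n := n) z
        nlinarith
      · rw [hr, zero_mul]; exact p_nonneg _
      · rw [p_smul r hr])
    have h1 : c z = p n z := by
      have hz' : z ∈ f.domain := Submodule.mem_span_singleton_self z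
      have h2 := hc ⟨z, hz'⟩
      have e : f ⟨z, hz'⟩ = p n z := LinearPMap.mkSpanSingleton'_apply_self _ _ _ _
      rw [e] at h2
      exact h2
    have hs : ∀ σ, |c (Finsupp.single σ 1)| ≤ 1 := by
      have h2 : ∀ σ : Simp (n + 1) M, ∀ a : ℝ, |a| = 1 → c (Finsupp.single σ a) ≤ 1 := by
        intro σ a ha
        refine (hcp _).trans ((p_le _ 0).trans_eq ?_)
        rw [map_zero, add_zero, l1_single, ha]
      intro σ
      rw [abs_le]
      constructor
      · have h3 := h2 σ (-1) (by simp)
        rw [show Finsupp.single σ (-1 : ℝ) = -Finsupp.single σ 1 from Finsupp.single_neg σ 1,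
          map_neg] at h3
        linarith
      · exact h2 σ 1 (by simp)
    have hb : ∀ w, c (bd (n + 1) w) = 0 := by
      intro w
      refine le_antisymm ((hcp _).trans (p_bd w)) ?_
      have h3 := (hcp (bd (n + 1) (-w))).trans (p_bd (-w))
      rw [map_neg, map_neg] at h3
      linarith
    have h4 := hB c hs hb
    rw [h1] at h4
    exact (le_abs_self _).trans h4
  obtain ⟨w, hw⟩ := exists_lt_of_ciInf_lt
    (f := fun w : Chain (n + 2) M => l1 (z + bd (n + 1) w)) (a := B + δ)
    (by show p n z < _; linarith)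
  exact ⟨w, hw.le⟩

end Vale.Agent.P223.MT.D
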