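import Vale.Agent.P223.MT.Spec
import Vale.Agent.P223.MT.HEP

/-! Blocks Hn1 and Hn2 (horns). -/

namespace Vale.Agent.P223.MT.Hn

open H (Simp Chain face bd l1)

variable {k : ℕ}

/-- the smallest coordinate with positive index -/
noncomputable def m (x : Dl (k + 2)) : ℝ :=
  Finset.univ.inf' Finset.univ_nonempty fun i : Fin (k + 1) => x i.succ

theorem continuous_m : Continuous (m : Dl (k + 2) → ℝ) :=
  Continuous.finset_inf'_apply _ fun i _ => continuous_coord i.succ

theorem m_le (x : Dl (k + 2)) (i : Fin (k + 1)) : m x ≤ x i.succ :=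
  Finset.inf'_le _ (Finset.mem_univ i)

theorem m_nonneg (x : Dl (k + 2)) : 0 ≤ m x :=
  Finset.le_inf' _ _ fun i _ => x.2.1 i.succ

theorem exists_m (x : Dl (k + 2)) : ∃ i : Fin (k + 1), m x = x i.succ := by
  obtain ⟨i, -, hi⟩ := Finset.exists_mem_eq_inf' (Finset.univ_nonempty (α := Fin (k + 1)))
    fun i => x i.succ
  exact ⟨i, hi⟩

theorem m_eq_zero {x : Dl (k + 2)} (h : ∃ i, i ≠ 0 ∧ x i = 0) : m x = 0 := by
  obtain ⟨i, hi, hx⟩ := h
  obtain ⟨j, rfl⟩ := Fin.exists_succ_eq.2 hi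
  exact le_antisymm ((m_le x j).trans_eq hx) (m_nonneg x)

/-- the deformation -/
noncomputable def D : C(I × Dl (k + 2), Dl (k + 2)) where
  toFun p := ⟨Fin.cons (p.2 0 + (p.1 : ℝ) * ((k + 1 : ℕ) : ℝ) * m p.2)
      fun i : Fin (k + 1) => p.2 i.succ - (p.1 : ℝ) * m p.2, by
    constructor
    · intro i
      refine Fin.cases ?_ (fun i => ?_) i
      · have h1 := p.2.2.1 0
        have h2 := m_nonneg p.2
        have h3 := p.1.2.1
        show 0 ≤ p.2 0 + (p.1 : ℝ) * ((k + 1 : ℕ) : ℝ) * m p.2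
        have h1' : 0 ≤ p.2 0 := h1
        positivity
      · have h1 := m_le p.2 i
        have h2 := m_nonneg p.2
        have h3 := p.1.2.2
        show 0 ≤ p.2 i.succ - (p.1 : ℝ) * m p.2
        nlinarith
    · rw [Fin.sum_univ_succ]
      simp only [Fin.cons_zero, Fin.cons_succ]
      rw [Finset.sum_sub_distrib, Finset.sum_const, Finset.card_univ, Fintype.card_fin,
        nsmul_eq_mul]
      have h1 : ∑ i, p.2 i = 1 := p.2.2.2
      rw [Fin.sum_univ_succ] at h1
      linarith⟩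
  continuous_toFun := by
    refine Continuous.subtype_mk ?_ _
    refine continuous_pi fun i => ?_
    have hm : Continuous fun p : I × Dl (k + 2) => m p.2 := continuous_m.comp continuous_snd
    have h1 : Continuous fun p : I × Dl (k + 2) => (p.1 : ℝ) :=
      continuous_subtype_val.comp continuous_fst
    refine Fin.cases ?_ (fun i => ?_) i
    · exact ((continuous_coord 0).comp continuous_snd).add ((h1.mul continuous_const).mul hm)
    · exact ((continuous_coord i.succ).comp continuous_snd).sub (h1.mul hm)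

theorem D_zero (p : I × Dl (k + 2)) : D p 0 = p.2 0 + (p.1 : ℝ) * ((k + 1 : ℕ) : ℝ) * m p.2 := rfl

theorem D_succ (p : I × Dl (k + 2)) (i : Fin (k + 1)) :
    D p i.succ = p.2 i.succ - (p.1 : ℝ) * m p.2 := rfl

theorem D_eq {p : I × Dl (k + 2)} (h : (p.1 : ℝ) * m p.2 = 0) : D p = p.2 := by
  refine Subtype.ext (funext fun i => ?_)
  show D p i = p.2 i
  refine Fin.cases ?_ (fun i => ?_) i
  · rw [D_zero, mul_right_comm, h, zero_mul, add_zero]
  · rw [D_succ, h, sub_zero]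

theorem D_one (x : Dl (k + 2)) : ∃ i, i ≠ 0 ∧ D (1, x) i = 0 := by
  obtain ⟨i, hi⟩ := exists_m x
  refine ⟨i.succ, Fin.succ_ne_zero i, ?_⟩
  rw [D_succ]
  show x i.succ - ((1 : I) : ℝ) * m x = 0
  rw [hi, Set.Icc.coe_one, one_mul, sub_self]

theorem hn1 : SpecHorn1 := by
  intro M _ k υ υ' h
  have key : ∀ υ : Simp (k + 2) M, ContinuousMap.HomotopicRel υ
      (υ.comp ⟨fun x => D (1, x), by fun_prop⟩) {x | ∃ i, i ≠ 0 ∧ x i = 0} := by
    intro υ
    refine ⟨⟨⟨⟨fun p => υ (D p), by fun_prop⟩, fun x => ?_, fun x => rfl⟩, fun t x hx => ?_⟩⟩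
    · show υ (D (0, x)) = υ x
      rw [D_eq (by simp)]
    · show υ (D (t, x)) = υ x
      rw [D_eq (p := (t, x)) (by rw [m_eq_zero hx, mul_zero])]
  have e : υ.comp ⟨fun x => D (1, x), by fun_prop⟩ = υ'.comp ⟨fun x => D (1, x), by fun_prop⟩ :=
    ContinuousMap.ext fun x => h _ (D_one x)
  exact (e ▸ key υ).trans (key υ').symm

theorem hn2 (hE : SpecExt) (h1 : SpecHorn1) : SpecHorn2 := by
  intro M _ k ξ ξ' h
  choose F hF using fun i : {i : Fin (k + 2) // i ≠ 0} => (⟨(h i.1 i.2).some, trivial⟩ :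
    ∃ F : ContinuousMap.HomotopyRel (ξ.comp (face (k + 1) i.1)) (ξ'.comp (face (k + 1) i.1))
      (bdry (k + 1)), True)
  classical
  let G : Fin (k + 2) → Hom (k + 1) M := fun i =>
    if hi : i ≠ 0 then (F ⟨i, hi⟩).toContinuousMap
    else ⟨fun p => ξ (face (k + 1) i p.2), by fun_prop⟩
  have hG1 : ∀ i (hi : i ≠ 0), G i = (F ⟨i, hi⟩).toContinuousMap := fun i hi => dif_pos hi
  have hG0 : ∀ p, G 0 p = ξ (face (k + 1) 0 p.2) := by
    intro p
    have e : G 0 = ⟨fun p => ξ (face (k + 1) 0 p.2), by fun_prop⟩ := dif_neg (by simp)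
    rw [e]; rfl
  have hGb : ∀ i t x, x ∈ bdry (k + 1) → G i (t, x) = ξ (face (k + 1) i x) := by
    intro i t x hx
    by_cases hi : i = 0
    · subst hi; exact hG0 _
    · rw [hG1 i hi]
      exact (F ⟨i, hi⟩).eq_fst t hx
  have hE' := hE M (k + 1) ξ G (fun i x => ?_) (fun i j t x y hxy => ?_)
  · obtain ⟨K, hK0, hKf⟩ := hE'
    have hK1 : ∀ x : Dl (k + 2), (∃ i, i ≠ 0 ∧ x i = 0) → K.at 1 x = ξ' x := by
      rintro x ⟨i, hi, hx⟩
      rw [← face_drop i x hx]
      have e1 : K.at 1 (face (k + 1) i (drop i x hx)) = K.fc i (1, drop i x hx) := rfl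
      rw [e1, hKf i, hG1 i hi]
      exact (F ⟨i, hi⟩).apply_one _
    have h2 := h1 M k (K.at 1) ξ' hK1
    obtain ⟨L⟩ := h2
    have e2 : ξ.comp (face (k + 1) 0) = (K.at 1).comp (face (k + 1) 0) := by
      refine ContinuousMap.ext fun x => ?_
      have e1 : K.at 1 (face (k + 1) 0 x) = K.fc 0 (1, x) := rfl
      show ξ (face (k + 1) 0 x) = K.at 1 (face (k + 1) 0 x)
      rw [e1, hKf 0, hG0]
    rw [e2]
    refine ⟨⟨⟨⟨fun p => L (p.1, face (k + 1) 0 p.2), by fun_prop⟩, fun x => ?_, fun x => ?_⟩,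
      fun t x hx => ?_⟩⟩
    · exact L.apply_zero _
    · exact L.apply_one _
    · obtain ⟨i, hi⟩ := hx
      refine L.eq_fst t ⟨i.succ, Fin.succ_ne_zero i, ?_⟩
      have := face_succAbove (k + 1) 0 x i
      rw [Fin.succAbove_zero] at this
      exact this.trans hi
  · by_cases hi : i = 0
    · subst hi; exact hG0 _
    · rw [hG1 i hi]
      exact (F ⟨i, hi⟩).apply_zero _
  · by_cases hij : i = j
    · subst hij
      rw [face_inj _ _ hxy]
    · have hx : x ∈ bdry (k + 1) := by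
        obtain ⟨a, ha⟩ := Fin.exists_succAbove_eq (Ne.symm hij)
        refine ⟨a, ?_⟩
        rw [← face_succAbove (k + 1) i x a, hxy, ha, face_self]
      have hy : y ∈ bdry (k + 1) := by
        obtain ⟨a, ha⟩ := Fin.exists_succAbove_eq hij
        refine ⟨a, ?_⟩
        rw [← face_succAbove (k + 1) j y a, ← hxy, ha, face_self]
      rw [hGb i t x hx, hGb j t y hy, hxy]

end Vale.Agent.P223.MT.Hn
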