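import Vale.Agent.P223.MT.Basic

/-! Assembly of the output `SpecMT`. -/

namespace Vale.Agent.P223.MT

open H (Simp Chain face bd l1)

variable {M : Type} [TopologicalSpace M] {k j l n m : ℕ}

theorem bd_single (τ : Simp (k + 1) M) (r : ℝ) : bd k (Finsupp.single τ r) =
    ∑ i : Fin (k + 1), Finsupp.single (τ.comp (face k i)) (r * (-1 : ℝ) ^ (i : ℕ)) := by
  unfold bd
  rw [Finsupp.linearCombination_single, Finset.smul_sum]
  exact Finset.sum_congr rfl fun i _ => by rw [Finsupp.smul_single, smul_eq_mul]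

theorem map_single (c : Chain k M →ₗ[ℝ] ℝ) (τ : Simp k M) (r : ℝ) :
    c (Finsupp.single τ r) = r * c (Finsupp.single τ 1) := by
  rw [← smul_eq_mul r, ← map_smul, Finsupp.smul_single, smul_eq_mul, mul_one]

theorem coc_of_linear (c : Chain (n + 1) M →ₗ[ℝ] ℝ) (h : ∀ w, c (bd (n + 1) w) = 0) :
    IsCoc fun σ => c (Finsupp.single σ 1) := by
  intro τ
  have h1 := h (Finsupp.single τ 1)
  rw [bd_single, map_sum] at h1
  rw [← h1]
  exact Finset.sum_congr rfl fun i _ => by rw [map_single c _ (1 * _), one_mul]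

theorem cob_of_bd (b : Simp n M → ℝ) (z : Chain (n + 1) M) :
    Finsupp.linearCombination ℝ b (bd n z) = z.sum fun σ r => r * Cob b σ := by
  induction z using Finsupp.induction_linear with
  | zero => simp
  | add x y hx hy =>
    rw [map_add, map_add, hx, hy, Finsupp.sum_add_index']
    · intro σ; rw [zero_mul]
    · intro σ r r'; rw [add_mul]
  | single σ r =>
    rw [bd_single, map_sum, Finsupp.sum_single_index (zero_mul _), Cob, Finset.mul_sum]
    refine Finset.sum_congr rfl fun i _ => ?_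
    rw [Finsupp.linearCombination_single, smul_eq_mul]; ring

theorem dist_iff {X Γ : Type} [TopologicalSpace X] [Group Γ] [MulAction Γ X] {π : C(X, M)}
    (hπ : ∀ x y, π x = π y ↔ ∃ γ : Γ, γ • x = y) {ι : Type} (x : ι → X) :
    Dist Γ x ↔ Function.Injective fun i => π (x i) :=
  ⟨fun h i j hij => h i j ((hπ _ _).1 hij), fun h _ _ hij => h ((hπ _ _).2 hij)⟩

theorem assembly (hB : SpecB) (hC : SpecC) : SpecMT := by
  intro M X Γ _ _ _ _ _ _ π hπ hs n c hn hc1 hc
  obtain ⟨f, b, hf1, hfi, hfv, hfc⟩ := hB M X Γ π hπ n (fun σ => c (Finsupp.single σ 1)) hn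
    (coc_of_linear c hc) hc1
  obtain ⟨F, hF1, hFi, hFc, hF⟩ := hC X Γ n f hs hf1 hfi
    fun x hx => hfc x ((dist_iff hπ x).1 hx)
  refine ⟨F, hF1, hFi, hFc, fun ι q hq a S hinj hvert hcyc hβ => ?_⟩
  obtain ⟨β, hβi, hβF⟩ := hF ι q hq
  have e1 : ∀ l ∈ a.support, c (Finsupp.single (π.comp (S l)) 1) =
      F (fun i => (l i).1) - (∑ i : Fin (n + 1), (-1 : ℝ) ^ (i : ℕ) * β (l ∘ i.succAbove)) -
        Cob b (π.comp (S l)) := by
    intro l hl
    have hv : vert (S l) = fun i => (l i).1 • q (l i).2 := funext (hvert l hl)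
    have h1 : Function.Injective fun i => π (vert (S l) i) := by
      intro i j hij
      refine hinj l hl ?_
      refine hq _ _ ?_
      have h2 := (hπ _ _).1 hij
      obtain ⟨γ, hγ⟩ := h2
      rw [hv] at hγ
      refine ⟨((l j).1)⁻¹ * (γ * (l i).1), ?_⟩
      have h3 : γ • (l i).1 • q (l i).2 = (l j).1 • q (l j).2 := hγ
      rw [mul_smul, mul_smul, h3, inv_smul_smul]
    have h2 := hfv (S l) h1
    have h3 := hβF l (hinj l hl)
    rw [hv] at h2
    rw [← h3, h2]; ring
  have e2 : (a.sum fun l r => r * Cob b (π.comp (S l))) = 0 := by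
    have h1 := cob_of_bd b (a.sum fun l r => Finsupp.single (π.comp (S l)) r)
    rw [hcyc, map_zero] at h1
    rw [h1, Finsupp.sum_sum_index]
    · refine Finsupp.sum_congr fun l _ => ?_
      rw [Finsupp.sum_single_index (zero_mul _)]
    · intro σ; rw [zero_mul]
    · intro σ r r'; rw [add_mul]
  have e3 := hβ β hβi
  have e4 : c (a.sum fun l r => Finsupp.single (π.comp (S l)) r) =
      a.sum fun l r => r * c (Finsupp.single (π.comp (S l)) 1) := by
    rw [Finsupp.sum, map_sum, Finsupp.sum]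
    exact Finset.sum_congr rfl fun l _ => map_single c _ _
  rw [e4]
  have e5 : (a.sum fun l r => r * c (Finsupp.single (π.comp (S l)) 1)) =
      (a.sum fun l r => r * F fun i => (l i).1) -
      (a.sum fun l r => r * ∑ i : Fin (n + 1), (-1 : ℝ) ^ (i : ℕ) * β (l ∘ i.succAbove)) -
      (a.sum fun l r => r * Cob b (π.comp (S l))) := by
    simp only [Finsupp.sum]
    rw [← Finset.sum_sub_distrib, ← Finset.sum_sub_distrib]
    refine Finset.sum_congr rfl fun l hl => ?_
    rw [e1 l hl]; ring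
  rw [e5, e2, e3, sub_zero, sub_zero]

end Vale.Agent.P223.MT
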