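import Vale.Agent.P223.MT.Spec
import Mathlib.Order.Filter.Ultrafilter.Basic

/-! Block Mn (amenability of abelian groups). -/

namespace Vale.Agent.P223.MT.Mn

open Filter
open scoped Topology

/-- Ultralimits of bounded real functions. -/
theorem exists_ulim {α : Type} (U : Ultrafilter α) :
    ∃ L : (α → ℝ) → ℝ, ∀ x, Bdd x → Tendsto x U (𝓝 (L x)) := by
  have h : ∀ x : α → ℝ, Bdd x → ∃ l, Tendsto x U (𝓝 l) := by
    rintro x ⟨C, hC⟩
    have hK : IsCompact (Set.Icc (-C) C) := isCompact_Icc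
    obtain ⟨l, -, hl⟩ := hK.ultrafilter_le_nhds (U.map x) (by
      rw [le_principal_iff, Ultrafilter.mem_coe, Ultrafilter.mem_map]
      refine Filter.univ_mem' fun a => ?_
      exact abs_le.1 (hC a))
    exact ⟨l, hl⟩
  classical
  refine ⟨fun x => if hx : Bdd x then (h x hx).choose else 0, fun x hx => ?_⟩
  have e : (if hx : Bdd x then (h x hx).choose else 0) = (h x hx).choose := dif_pos hx
  show Tendsto x U (𝓝 (if hx : Bdd x then (h x hx).choose else 0))
  rw [e]
  exact (h x hx).choose_spec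

/-- Means, without invariance. -/
structure Pre (A : Type) where
  μ : (A → ℝ) → ℝ
  add : ∀ f g, Bdd f → Bdd g → μ (fun a => f a + g a) = μ f + μ g
  smul : ∀ (r : ℝ) f, Bdd f → μ (fun a => r * f a) = r * μ f
  const : ∀ r : ℝ, μ (fun _ => r) = r
  bound : ∀ (f : A → ℝ) (C : ℝ), (∀ a, |f a| ≤ C) → |μ f| ≤ C

theorem bdd_add {A : Type} {f g : A → ℝ} (hf : Bdd f) (hg : Bdd g) : Bdd fun a => f a + g a := by
  obtain ⟨C, hC⟩ := hf
  obtain ⟨D, hD⟩ := hg
  exact ⟨C + D, fun a => (abs_add_le _ _).trans (add_le_add (hC a) (hD a))⟩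

theorem bdd_smul {A : Type} {f : A → ℝ} (r : ℝ) (hf : Bdd f) : Bdd fun a => r * f a := by
  obtain ⟨C, hC⟩ := hf
  exact ⟨|r| * C, fun a => by
    rw [abs_mul]; exact mul_le_mul_of_nonneg_left (hC a) (abs_nonneg _)⟩

theorem bdd_val {A ι : Type} (m : ι → Pre A) {f : A → ℝ} (hf : Bdd f) :
    Bdd fun i => (m i).μ f := by
  obtain ⟨C, hC⟩ := hf
  exact ⟨C, fun i => (m i).bound f C hC⟩

/-- The ultralimit of a family of means. -/
theorem exists_ultra {A ι : Type} (U : Ultrafilter ι) (m : ι → Pre A) :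
    ∃ M : Pre A, ∀ f, Bdd f → Tendsto (fun i => (m i).μ f) U (𝓝 (M.μ f)) := by
  obtain ⟨L, hL⟩ := exists_ulim U
  have hL' : ∀ f, Bdd f → Tendsto (fun i => (m i).μ f) U (𝓝 (L fun i => (m i).μ f)) :=
    fun f hf => hL _ (bdd_val m hf)
  refine ⟨⟨fun f => L fun i => (m i).μ f, fun f g hf hg => ?_, fun r f hf => ?_, fun r => ?_,
    fun f C hC => ?_⟩, hL'⟩
  · refine tendsto_nhds_unique (hL' _ (bdd_add hf hg)) ?_
    refine ((hL' f hf).add (hL' g hg)).congr fun i => ?_
    rw [(m i).add f g hf hg]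
  · refine tendsto_nhds_unique (hL' _ (bdd_smul r hf)) ?_
    refine ((hL' f hf).const_mul r).congr fun i => ?_
    rw [(m i).smul r f hf]
  · refine tendsto_nhds_unique (hL' _ ⟨|r|, fun _ => le_rfl⟩) ?_
    refine tendsto_const_nhds.congr fun i => ?_
    rw [(m i).const r]
  · have h1 := (hL' f ⟨C, hC⟩).abs
    exact le_of_tendsto h1 (Eventually.of_forall fun i => (m i).bound f C hC)

variable {A : Type} [CommGroup A]

theorem bdd_shift {f : A → ℝ} (hf : Bdd f) (b : A) : Bdd fun a => f (b * a) := by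
  obtain ⟨C, hC⟩ := hf
  exact ⟨C, fun a => hC _⟩

/-- averages over powers of `g` -/
noncomputable def avg (m : Pre A) (g : A) (n : ℕ) : Pre A where
  μ f := ((n + 1 : ℕ) : ℝ)⁻¹ * ∑ k ∈ Finset.range (n + 1), m.μ (fun a => f (g ^ k * a))
  add f h hf hh := by
    rw [← mul_add, ← Finset.sum_add_distrib]
    congr 1
    refine Finset.sum_congr rfl fun k _ => ?_
    exact m.add _ _ (bdd_shift hf _) (bdd_shift hh _)
  smul r f hf := by
    rw [mul_left_comm,
      Finset.mul_sum (Finset.range (n + 1)) (fun k => m.μ fun a => f (g ^ k * a)) r]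
    congr 1
    refine Finset.sum_congr rfl fun k _ => ?_
    exact m.smul r _ (bdd_shift hf _)
  const r := by
    simp only [m.const]
    rw [Finset.sum_const, Finset.card_range, nsmul_eq_mul, ← mul_assoc, inv_mul_cancel₀, one_mul]
    positivity
  bound f C hC := by
    rw [abs_mul, abs_of_nonneg (by positivity : (0 : ℝ) ≤ ((n + 1 : ℕ) : ℝ)⁻¹)]
    rw [inv_mul_le_iff₀ (by positivity)]
    refine (Finset.abs_sum_le_sum_abs _ _).trans ?_
    refine (Finset.sum_le_sum fun k _ => m.bound _ C fun a => hC _).trans_eq ?_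
    rw [Finset.sum_const, Finset.card_range, nsmul_eq_mul]

theorem avg_inv (m : Pre A) (g : A) (n : ℕ) (f : A → ℝ) (C : ℝ) (hC : ∀ a, |f a| ≤ C) :
    |(avg m g n).μ (fun a => f (g * a)) - (avg m g n).μ f| ≤ ((n + 1 : ℕ) : ℝ)⁻¹ * (2 * C) := by
  show |((n + 1 : ℕ) : ℝ)⁻¹ * ∑ k ∈ Finset.range (n + 1), m.μ (fun a => f (g * (g ^ k * a))) -
    ((n + 1 : ℕ) : ℝ)⁻¹ * ∑ k ∈ Finset.range (n + 1), m.μ (fun a => f (g ^ k * a))| ≤ _
  have e : ∀ k : ℕ, (fun a => f (g * (g ^ k * a))) = fun a => f (g ^ (k + 1) * a) := by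
    intro k
    funext a
    rw [← mul_assoc, ← pow_succ']
  simp only [e]
  rw [← mul_sub, ← Finset.sum_sub_distrib,
    Finset.sum_range_sub (fun k => m.μ fun a => f (g ^ k * a)), abs_mul,
    abs_of_nonneg (by positivity : (0 : ℝ) ≤ ((n + 1 : ℕ) : ℝ)⁻¹)]
  refine mul_le_mul_of_nonneg_left ?_ (by positivity)
  refine (abs_sub _ _).trans ?_
  have h1 := m.bound (fun a => f (g ^ (n + 1) * a)) C fun a => hC _
  have h2 := m.bound (fun a => f (g ^ 0 * a)) C fun a => hC _
  linarith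

theorem finite (S : Finset A) : ∃ m : Pre A, ∀ f, Bdd f → ∀ b ∈ S,
    m.μ (fun a => f (b * a)) = m.μ f := by
  classical
  induction S using Finset.induction_on with
  | empty =>
    exact ⟨⟨fun f => f 1, fun _ _ _ _ => rfl, fun _ _ _ => rfl, fun _ => rfl,
      fun f C hC => hC 1⟩, fun f _ b hb => absurd hb (Finset.notMem_empty b)⟩
  | insert g S _ ih =>
    obtain ⟨m, hm⟩ := ih
    obtain ⟨M, hM⟩ := exists_ultra (Filter.hyperfilter ℕ) (avg m g)
    refine ⟨M, fun f hf b hb => ?_⟩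
    have h1 := hM _ (bdd_shift hf b)
    have h2 := hM f hf
    rcases Finset.mem_insert.1 hb with rfl | hbS
    · obtain ⟨C, hC⟩ := hf
      have h3 : Tendsto (fun n : ℕ => ((n + 1 : ℕ) : ℝ)⁻¹ * (2 * C)) (Filter.hyperfilter ℕ)
          (𝓝 0) := by
        have h4 : Tendsto (fun n : ℕ => ((n + 1 : ℕ) : ℝ)⁻¹) atTop (𝓝 0) :=
          tendsto_inv_atTop_zero.comp
            (tendsto_natCast_atTop_atTop.comp (tendsto_add_atTop_nat 1))
        have h5 := (h4.mul_const (2 * C)).mono_left Nat.hyperfilter_le_atTop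
        simpa using h5
      have h6 : Tendsto (fun n => (avg m b n).μ (fun a => f (b * a)) - (avg m b n).μ f)
          (Filter.hyperfilter ℕ) (𝓝 0) :=
        squeeze_zero_norm (fun n => avg_inv m b n f C hC) h3
      exact sub_eq_zero.1 (tendsto_nhds_unique (h1.sub h2) h6)
    · refine tendsto_nhds_unique h1 (h2.congr fun n => ?_)
      show ((n + 1 : ℕ) : ℝ)⁻¹ * ∑ k ∈ Finset.range (n + 1), m.μ (fun a => f (g ^ k * a)) =
        ((n + 1 : ℕ) : ℝ)⁻¹ * ∑ k ∈ Finset.range (n + 1), m.μ (fun a => f (b * (g ^ k * a)))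
      congr 1
      refine Finset.sum_congr rfl fun k _ => ?_
      have e : (fun a => f (b * (g ^ k * a))) = fun a => (fun c => f (g ^ k * c)) (b * a) := by
        funext a
        show _ = f (g ^ k * (b * a))
        rw [mul_left_comm]
      rw [e, hm _ (bdd_shift hf _) b hbS]

theorem main : SpecMean := by
  intro A _
  choose m hm using fun S : Finset A => finite S
  obtain ⟨M, hM⟩ := exists_ultra (Ultrafilter.of (atTop : Filter (Finset A))) m
  refine ⟨⟨M.μ, M.add, M.smul, M.const, M.bound, fun f b hf => ?_⟩⟩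
  refine tendsto_nhds_unique (hM _ (bdd_shift hf b)) ((hM f hf).congr' ?_)
  have h1 : ∀ᶠ S : Finset A in atTop, b ∈ S := by
    filter_upwards [eventually_ge_atTop ({b} : Finset A)] with S hS
    exact hS (Finset.mem_singleton_self b)
  filter_upwards [Ultrafilter.of_le (f := (atTop : Filter (Finset A))) h1] with S hS
  exact (hm S f hf b hS).symm

end Vale.Agent.P223.MT.Mn
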