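import Vale.Agent.P223.H.Defs

/-! The prism operator. -/

namespace Vale.Agent.P223.MT.Prism

open Vale.Agent.P223.H

/-- the affine map `Δ → I × Δ` sending the vertex `i` to the vertex `(1 if p i else 0, f i)` -/
noncomputable def aff {k m : ℕ} (p : Fin k → Prop) [DecidablePred p] (f : Fin k → Fin m) :
    C(stdSimplex ℝ (Fin k), unitInterval × stdSimplex ℝ (Fin m)) where
  toFun t := (⟨∑ i, if p i then t i else 0, by
    constructor
    · exact Finset.sum_nonneg fun i _ => by split_ifs <;> simp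
    · calc ∑ i, (if p i then t i else 0) ≤ ∑ i, t i :=
          Finset.sum_le_sum fun i _ => by split_ifs <;> simp
        _ = 1 := by simp⟩, stdSimplex.map f t)
  continuous_toFun := by
    refine Continuous.prodMk (Continuous.subtype_mk ?_ _) (stdSimplex.continuous_map f)
    refine continuous_finsetSum _ fun i _ => ?_
    split_ifs
    · exact (continuous_apply i).comp continuous_subtype_val
    · exact continuous_const

/-- the map `id × f : I × Δ → I × Δ` -/
noncomputable def pm {k m : ℕ} (f : Fin k → Fin m) :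
    C(unitInterval × stdSimplex ℝ (Fin k), unitInterval × stdSimplex ℝ (Fin m)) :=
  ⟨fun x => (x.1, stdSimplex.map f x.2),
    continuous_fst.prodMk ((stdSimplex.continuous_map f).comp continuous_snd)⟩

/-- the slice `Δ → I × Δ` at time `s` -/
def sl {k : ℕ} (s : unitInterval) :
    C(stdSimplex ℝ (Fin k), unitInterval × stdSimplex ℝ (Fin k)) :=
  ⟨fun x => (s, x), by fun_prop⟩

theorem sum_map {k m : ℕ} (g : Fin k → Fin m) (p : Fin m → Prop) [DecidablePred p]
    (t : stdSimplex ℝ (Fin k)) :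
    ∑ i, (if p i then stdSimplex.map g t i else 0) = ∑ i, if p (g i) then t i else 0 := by
  simp only [stdSimplex.map_coe, FunOnFinite.linearMap_apply_apply]
  rw [← Finset.sum_filter, ← Finset.sum_filter, ← Finset.sum_fiberwise_of_maps_to
    (s := Finset.univ.filter fun i => p (g i)) (t := Finset.univ.filter p) (g := g)
    (by intro i hi; simpa using hi)]
  refine Finset.sum_congr rfl fun i hi => Finset.sum_congr ?_ fun _ _ => rfl
  ext j
  simp only [Finset.mem_filter, Finset.mem_univ, true_and] at hi ⊢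
  constructor
  · intro h; exact ⟨by rw [h]; exact hi, h⟩
  · intro h; exact h.2

theorem aff_comp {k l m : ℕ} (p : Fin l → Prop) [DecidablePred p] (f : Fin l → Fin m)
    (g : Fin k → Fin l) (h : Continuous (stdSimplex.map (S := ℝ) g)) :
    (aff p f).comp ⟨stdSimplex.map g, h⟩ = aff (fun i => p (g i)) (fun i => f (g i)) := by
  ext t
  · simp only [aff, ContinuousMap.comp_apply, ContinuousMap.coe_mk, sum_map]
  · simp only [aff, ContinuousMap.comp_apply, ContinuousMap.coe_mk, stdSimplex.map_comp_apply]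
    rfl

theorem pm_aff {k l m : ℕ} (p : Fin k → Prop) [DecidablePred p] (f : Fin k → Fin l)
    (g : Fin l → Fin m) : (pm g).comp (aff p f) = aff p (fun i => g (f i)) := by
  ext t
  · simp only [aff, pm, ContinuousMap.comp_apply, ContinuousMap.coe_mk]
  · simp only [aff, pm, ContinuousMap.comp_apply, ContinuousMap.coe_mk, stdSimplex.map_comp_apply]
    rfl

theorem aff_one {k : ℕ} (p : Fin k → Prop) [DecidablePred p] (hp : ∀ i, p i) (f : Fin k → Fin k)
    (hf : ∀ i, f i = i) : aff p f = sl 1 := by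
  have hf' : f = id := funext hf
  ext t
  · simp [aff, sl, hp]
  · simp [aff, sl, hf']

theorem aff_zero {k : ℕ} (p : Fin k → Prop) [DecidablePred p] (hp : ∀ i, ¬ p i)
    (f : Fin k → Fin k) (hf : ∀ i, f i = i) : aff p f = sl 0 := by
  have hf' : f = id := funext hf
  ext t
  · simp [aff, sl, hp]
  · simp [aff, sl, hf']

theorem aff_congr {k m : ℕ} (p p' : Fin k → Prop) [DecidablePred p] [DecidablePred p']
    (f f' : Fin k → Fin m) (h : ∀ i, p i ↔ p' i) (hf : ∀ i, f i = f' i) : aff p f = aff p' f' := by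
  have h1 : p = p' := funext fun i => propext (h i)
  have h2 : f = f' := funext hf
  subst h1 h2
  congr

/-- the `j`-th simplex of the prism -/
noncomputable def Q (k : ℕ) (j : Fin k) :
    C(stdSimplex ℝ (Fin (k + 1)), unitInterval × stdSimplex ℝ (Fin k)) :=
  aff (fun i => j.castSucc < i) (fun i => j.predAbove i)

theorem val_sa {n : ℕ} (i : Fin (n + 1)) (j : Fin n) :
    ((i.succAbove j : Fin (n + 1)) : ℕ) = if (j : ℕ) < i then (j : ℕ) else j + 1 := by
  unfold Fin.succAbove
  simp only [Fin.lt_def, Fin.val_castSucc]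
  split_ifs <;> simp

theorem val_pa {n : ℕ} (j : Fin n) (i : Fin (n + 1)) :
    ((j.predAbove i : Fin n) : ℕ) = if (j : ℕ) < i then (i : ℕ) - 1 else i := by
  unfold Fin.predAbove
  simp only [Fin.lt_def, Fin.val_castSucc]
  split_ifs <;> simp

theorem comb (k : ℕ) (u : Fin (k + 1) → Fin (k + 2) → ℝ) (E : Fin (k + 2) → ℝ)
    (T : Fin (k + 1) → Fin k → ℝ)
    (h0 : ∀ j, ∑ i : Fin (k + 2), (-1 : ℝ) ^ (i : ℕ) * u j i = 0)
    (h1 : ∀ j, u j j.castSucc = E j.castSucc) (h2 : ∀ j, u j j.succ = E j.succ)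
    (h3 : ∀ (i : Fin (k + 1)) (j : Fin k), i ≤ j.castSucc → u j.succ i.castSucc = T i j)
    (h4 : ∀ (i : Fin (k + 1)) (j : Fin k), j.castSucc < i → u j.castSucc i.succ = T i j) :
    E 0 - E (Fin.last _) = ∑ i : Fin (k + 1), (-1 : ℝ) ^ (i : ℕ) *
      ∑ j : Fin k, (-1 : ℝ) ^ (j : ℕ) * T i j := by
  have key : ∑ j : Fin (k + 1), ((-1 : ℝ) ^ (j : ℕ) *
      ∑ i : Fin (k + 2), (-1 : ℝ) ^ (i : ℕ) * u j i) = 0 :=
    Finset.sum_eq_zero fun j _ => by rw [h0, mul_zero]
  have e1 : ∀ j : Fin (k + 1), (-1 : ℝ) ^ (j : ℕ) *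
      ∑ i : Fin (k + 2), (-1 : ℝ) ^ (i : ℕ) * u j i =
      E j.castSucc - E j.succ + ∑ i : Fin (k + 1), if i = j then 0 else
        (-1 : ℝ) ^ (j : ℕ) * ((-1 : ℝ) ^ ((j.castSucc.succAbove i : Fin (k + 2)) : ℕ) *
          u j (j.castSucc.succAbove i)) := by
    intro j
    rw [Fin.sum_univ_succAbove _ j.castSucc, mul_add, Finset.mul_sum]
    have : ∀ i : Fin (k + 1), (-1 : ℝ) ^ (j : ℕ) * ((-1 : ℝ) ^
        ((j.castSucc.succAbove i : Fin (k + 2)) : ℕ) * u j (j.castSucc.succAbove i)) =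
        (if i = j then (-1 : ℝ) ^ (j : ℕ) * ((-1 : ℝ) ^
        ((j.castSucc.succAbove i : Fin (k + 2)) : ℕ) * u j (j.castSucc.succAbove i)) else 0) +
        (if i = j then 0 else (-1 : ℝ) ^ (j : ℕ) * ((-1 : ℝ) ^
        ((j.castSucc.succAbove i : Fin (k + 2)) : ℕ) * u j (j.castSucc.succAbove i))) := by
      intro i; split_ifs <;> simp
    rw [Finset.sum_congr rfl fun i _ => this i, Finset.sum_add_distrib,
      Finset.sum_ite_eq' Finset.univ j, if_pos (Finset.mem_univ _)]
    rw [Fin.succAbove_castSucc_self, h1, h2]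
    have hs : (-1 : ℝ) ^ (j : ℕ) * (-1 : ℝ) ^ (j : ℕ) = 1 := by
      rw [← pow_add, ← two_mul, pow_mul]; norm_num
    simp only [Fin.val_castSucc, Fin.val_succ, pow_succ]
    linear_combination (E j.castSucc - E j.succ) * hs
  rw [Finset.sum_congr rfl fun j _ => e1 j, Finset.sum_add_distrib] at key
  have e2 : ∑ j : Fin (k + 1), (E j.castSucc - E j.succ) = E 0 - E (Fin.last _) := by
    rw [Finset.sum_sub_distrib]
    have a := Fin.sum_univ_succ E
    have b := Fin.sum_univ_castSucc E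
    linarith
  have e3 : ∑ j : Fin (k + 1), ∑ i : Fin (k + 1), (if i = j then 0 else
        (-1 : ℝ) ^ (j : ℕ) * ((-1 : ℝ) ^ ((j.castSucc.succAbove i : Fin (k + 2)) : ℕ) *
          u j (j.castSucc.succAbove i))) =
      -∑ i : Fin (k + 1), (-1 : ℝ) ^ (i : ℕ) * ∑ j : Fin k, (-1 : ℝ) ^ (j : ℕ) * T i j := by
    rw [Finset.sum_comm, ← Finset.sum_neg_distrib]
    refine Finset.sum_congr rfl fun i _ => ?_
    rw [Fin.sum_univ_succAbove _ i, if_pos rfl, zero_add, Finset.mul_sum,
      ← Finset.sum_neg_distrib]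
    refine Finset.sum_congr rfl fun j _ => ?_
    rw [if_neg (Fin.succAbove_ne i j).symm]
    by_cases hj : j.castSucc < i
    · rw [Fin.succAbove_of_castSucc_lt _ _ hj, Fin.succAbove_of_le_castSucc _ _
        (by rw [Fin.castSucc_le_castSucc_iff]; exact hj.le), h4 i j hj]
      simp only [Fin.val_castSucc, Fin.val_succ, pow_succ]
      ring
    · rw [Fin.succAbove_of_le_castSucc _ _ (not_lt.1 hj), Fin.succAbove_of_castSucc_lt, h3 i j
        (not_lt.1 hj)]
      · simp only [Fin.val_castSucc, Fin.val_succ, pow_succ]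
        ring
      · rw [Fin.castSucc_lt_castSucc_iff]
        exact lt_of_le_of_lt (not_lt.1 hj) (Fin.castSucc_lt_succ)
  rw [e2, e3] at key
  linarith

theorem prism {M : Type} [TopologicalSpace M] (k : ℕ) (c : Simp (k + 1) M → ℝ)
    (hc : ∀ τ : Simp (k + 2) M, ∑ i : Fin (k + 2), (-1 : ℝ) ^ (i : ℕ) * c (τ.comp (face (k + 1) i)) = 0)
    (K : C(unitInterval × stdSimplex ℝ (Fin (k + 1)), M)) :
    c (K.comp (sl 1)) - c (K.comp (sl 0)) = ∑ i : Fin (k + 1), (-1 : ℝ) ^ (i : ℕ) *
      ∑ j : Fin k, (-1 : ℝ) ^ (j : ℕ) * c ((K.comp (pm i.succAbove)).comp (Q k j)) := by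
  have h := comb k (fun j i => c ((K.comp (Q (k + 1) j)).comp (face (k + 1) i)))
    (fun j => c (K.comp (aff (fun i => j ≤ i.castSucc) id)))
    (fun i j => c ((K.comp (pm i.succAbove)).comp (Q k j)))
    (fun j => hc _) ?_ ?_ ?_ ?_
  · rw [← h, aff_one _ (by simp) _ (by simp), aff_zero _ (by
      intro i; rw [not_le]; exact Fin.castSucc_lt_last i) _ (by simp)]
  · intro j
    rw [ContinuousMap.comp_assoc, Q, face, aff_comp]
    congr 2
    refine aff_congr _ _ _ _ (fun i => ?_) (fun i => ?_)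
    · simp only [Fin.lt_def, Fin.le_def, val_sa, Fin.val_castSucc, Fin.val_succ]
      split_ifs <;> omega
    · simp only [Fin.ext_iff, val_sa, val_pa, Fin.val_castSucc, Fin.val_succ, id]
      split_ifs <;> omega
  · intro j
    rw [ContinuousMap.comp_assoc, Q, face, aff_comp]
    congr 2
    refine aff_congr _ _ _ _ (fun i => ?_) (fun i => ?_)
    · simp only [Fin.lt_def, Fin.le_def, val_sa, Fin.val_castSucc, Fin.val_succ]
      split_ifs <;> omega
    · simp only [Fin.ext_iff, val_sa, val_pa, Fin.val_castSucc, Fin.val_succ, id]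
      split_ifs <;> omega
  · intro i j hij
    rw [ContinuousMap.comp_assoc, ContinuousMap.comp_assoc, Q, Q, face, aff_comp, pm_aff]
    congr 2
    rw [Fin.le_def, Fin.val_castSucc] at hij
    refine aff_congr _ _ _ _ (fun l => ?_) (fun l => ?_)
    · simp only [Fin.lt_def, val_sa, Fin.val_castSucc, Fin.val_succ]
      split_ifs <;> omega
    · simp only [Fin.ext_iff, val_sa, val_pa, Fin.val_castSucc, Fin.val_succ]
      split_ifs <;> omega
  · intro i j hij
    rw [ContinuousMap.comp_assoc, ContinuousMap.comp_assoc, Q, Q, face, aff_comp, pm_aff]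
    congr 2
    rw [Fin.lt_def, Fin.val_castSucc] at hij
    refine aff_congr _ _ _ _ (fun l => ?_) (fun l => ?_)
    · simp only [Fin.lt_def, val_sa, Fin.val_castSucc, Fin.val_succ]
      split_ifs <;> omega
    · simp only [Fin.ext_iff, val_sa, val_pa, Fin.val_castSucc, Fin.val_succ]
      split_ifs <;> omega

/-- the prism operator, for bounded cocycles -/
theorem prism_bdd {M : Type} [TopologicalSpace M] (k : ℕ) (c : Simp (k + 1) M → ℝ) (a : ℝ)
    (ha : ∀ σ, |c σ| ≤ a)
    (hc : ∀ τ : Simp (k + 2) M, ∑ i : Fin (k + 2),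
      (-1 : ℝ) ^ (i : ℕ) * c (τ.comp (face (k + 1) i)) = 0) :
    ∃ B : C(unitInterval × stdSimplex ℝ (Fin k), M) → ℝ, (∀ K, |B K| ≤ k * a) ∧
      ∀ K : C(unitInterval × stdSimplex ℝ (Fin (k + 1)), M),
        c (K.comp (sl 1)) - c (K.comp (sl 0)) = ∑ i : Fin (k + 1), (-1 : ℝ) ^ (i : ℕ) *
          B (K.comp (pm i.succAbove)) := by
  refine ⟨fun K => ∑ j : Fin k, (-1 : ℝ) ^ (j : ℕ) * c (K.comp (Q k j)), fun K => ?_,
    fun K => prism k c hc K⟩
  calc |∑ j : Fin k, (-1 : ℝ) ^ (j : ℕ) * c (K.comp (Q k j))|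
      ≤ ∑ j : Fin k, |(-1 : ℝ) ^ (j : ℕ) * c (K.comp (Q k j))| :=
        Finset.abs_sum_le_sum_abs _ _
    _ ≤ ∑ _j : Fin k, a := Finset.sum_le_sum fun j _ => by
        rw [abs_mul, abs_pow, abs_neg, abs_one, one_pow, one_mul]; exact ha _
    _ = k * a := by simp

end Vale.Agent.P223.MT.Prism
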