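import Vale.Agent.P223.MT.Spec
import Vale.Agent.P223.MT.Prism

/-! Block P. -/

namespace Vale.Agent.P223.MT.P

theorem main : SpecPrism := by
  intro M _ n c hc hb
  obtain ⟨B, h1, h2⟩ := Prism.prism_bdd n c 1 hb hc
  refine ⟨B, fun L => by simpa using h1 L, fun K => ?_⟩
  exact h2 K

end Vale.Agent.P223.MT.P
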