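import Vale.Agent.P223.MT.Spec

/-! Block U : iterated ultralimits. -/

namespace Vale.Agent.P223.MT.U

open Filter Topology

/-- ultralimit of a sequence -/
noncomputable def ul (u : ℕ → ℝ) : ℝ := limUnder (hyperfilter ℕ : Filter ℕ) u

theorem ul_eq {u : ℕ → ℝ} {x : ℝ} (h : Tendsto u (hyperfilter ℕ) (𝓝 x)) : ul u = x :=
  h.limUnder_eq

theorem ul_tendsto {u : ℕ → ℝ} {C : ℝ} (h : ∀ j, |u j| ≤ C) :
    Tendsto u (hyperfilter ℕ) (𝓝 (ul u)) := by
  obtain ⟨x, -, hle⟩ := (isCompact_Icc (a := -C) (b := C)).ultrafilter_le_nhds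
    ((hyperfilter ℕ).map u) (by
      rw [le_principal_iff, Ultrafilter.mem_coe, Ultrafilter.mem_map]
      refine Filter.mem_of_superset Filter.univ_mem ?_
      intro j _
      exact abs_le.mp (h j))
  have : Tendsto u (hyperfilter ℕ) (𝓝 x) := by
    rw [Ultrafilter.coe_map] at hle
    exact hle
  rwa [ul_eq this]

theorem ul_const (c : ℝ) : ul (fun _ => c) = c := ul_eq tendsto_const_nhds

theorem ul_abs {u : ℕ → ℝ} {C : ℝ} (h : ∀ j, |u j| ≤ C) : |ul u| ≤ C :=
  le_of_tendsto (ul_tendsto h).abs (Eventually.of_forall h)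

theorem ul_congr {u v : ℕ → ℝ} (S : Finset ℕ) (h : ∀ a, a ∉ S → u a = v a) : ul u = ul v := by
  unfold ul limUnder
  have : u =ᶠ[(hyperfilter ℕ : Filter ℕ)] v := by
    have h1 : ∀ᶠ a in (hyperfilter ℕ : Filter ℕ), a ∉ S :=
      hyperfilter_le_cofinite (S.finite_toSet.compl_mem_cofinite)
    exact h1.mono h
  rw [map_congr this]

/-- iterated ultralimit -/
noncomputable def L : (m : ℕ) → ((Fin m → ℕ) → ℝ) → ℝ
  | 0, φ => φ Fin.elim0
  | m + 1, φ => ul fun a => L m fun j => φ (Fin.cons a j)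

theorem L_abs : ∀ (m : ℕ) {φ : (Fin m → ℕ) → ℝ} {C : ℝ}, (∀ j, |φ j| ≤ C) → |L m φ| ≤ C
  | 0, _, _, h => h _
  | m + 1, _, _, h => ul_abs fun _ => L_abs m fun _ => h _

theorem L_const : ∀ (m : ℕ) (c : ℝ), L m (fun _ => c) = c
  | 0, _ => rfl
  | m + 1, c => by
    unfold L
    simp only [L_const m, ul_const]

theorem L_congr : ∀ (m : ℕ) {φ ψ : (Fin m → ℕ) → ℝ} (S : Finset ℕ),
    (∀ j, Function.Injective j → (∀ k, j k ∉ S) → φ j = ψ j) → L m φ = L m ψ
  | 0, _, _, _, h => h _ (fun x => x.elim0) (fun x => x.elim0)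
  | m + 1, _, _, S, h => by
    refine ul_congr S fun a ha => L_congr m (insert a S) fun j hj hj' => ?_
    refine h _ (Fin.cons_injective_iff.mpr ⟨?_, hj⟩) ?_
    · rintro ⟨k, hk⟩
      exact hj' k (by rw [hk]; exact Finset.mem_insert_self _ _)
    · intro k
      refine Fin.cases ?_ (fun k => ?_) k
      · simpa using ha
      · intro h1
        rw [Fin.cons_succ] at h1
        exact hj' k (Finset.mem_insert_of_mem h1)

theorem L_sum {κ : Type} (s : Finset κ) (c : κ → ℝ) : ∀ (m : ℕ) (φ : κ → (Fin m → ℕ) → ℝ),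
    (∀ i j, |φ i j| ≤ 1) →
    L m (fun j => ∑ i ∈ s, c i * φ i j) = ∑ i ∈ s, c i * L m (φ i)
  | 0, _, _ => rfl
  | m + 1, φ, h => by
    change ul (fun a => L m fun j => ∑ i ∈ s, c i * φ i (Fin.cons a j)) = _
    have h1 : ∀ a, (L m fun j => ∑ i ∈ s, c i * φ i (Fin.cons a j)) =
        ∑ i ∈ s, c i * L m (fun j => φ i (Fin.cons a j)) := fun a =>
      L_sum s c m (fun i j => φ i (Fin.cons a j)) fun i j => h _ _
    simp only [h1]
    refine ul_eq (tendsto_finsetSum _ fun i _ => Tendsto.const_mul _ ?_)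
    exact ul_tendsto fun a => L_abs m fun j => h _ _

theorem L_ins : ∀ (m : ℕ) (i : Fin (m + 1)) (φ : (Fin m → ℕ) → ℝ),
    L (m + 1) (fun j => φ (fun k => j (i.succAbove k))) = L m φ := by
  intro m
  induction m with
  | zero =>
    intro i φ
    have : ∀ j : Fin 1 → ℕ, (fun k : Fin 0 => j (i.succAbove k)) = Fin.elim0 := fun j =>
      funext fun k => k.elim0
    simp only [this]
    exact L_const 1 _
  | succ m ih =>
    intro i φ
    refine Fin.cases ?_ (fun i => ?_) i
    · change ul (fun a => L (m + 1) fun j => φ fun k => (Fin.cons a j : Fin (m + 2) → ℕ)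
        ((0 : Fin (m + 2)).succAbove k)) = _
      have : ∀ (a : ℕ) (j : Fin (m + 1) → ℕ), (fun k => (Fin.cons a j : Fin (m + 2) → ℕ)
        ((0 : Fin (m + 2)).succAbove k)) = j := by
        intro a j; funext k; simp
      simp only [this]
      exact ul_const _
    · change ul (fun a => L (m + 1) fun j => φ fun k => (Fin.cons a j : Fin (m + 2) → ℕ)
        (i.succ.succAbove k)) = ul fun a => L m fun j => φ (Fin.cons a j)
      congr 1
      funext a
      rw [← ih i fun j => φ (Fin.cons a j)]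
      congr 1
      funext j
      congr 1
      funext k
      refine Fin.cases ?_ (fun k => ?_) k
      · simp
      · simp [Fin.succ_succAbove_succ]

section faces
variable {X : Type} {m n : ℕ}

/-- the vertices of the prism -/
def pr (x₀ : X) (a : ℕ) (y z : Fin m → X) (k : Fin (m + 1)) : X :=
  if h : (k : ℕ) ≤ a ∧ (k : ℕ) < m then y ⟨k, h.2⟩
  else if h : 0 < (k : ℕ) then z ⟨k - 1, by have := k.2; omega⟩ else x₀

/-- mixed tuples -/
def mx (a : ℕ) (y z : Fin m → X) (k : Fin m) : X := if (k : ℕ) < a then y k else z k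

theorem pr_le (x₀ : X) {a : ℕ} (y z : Fin m → X) (k : Fin (m + 1)) (h : (k : ℕ) ≤ a)
    (hk : (k : ℕ) < m) : pr x₀ a y z k = y ⟨k, hk⟩ := dif_pos ⟨h, hk⟩

theorem pr_gt (x₀ : X) {a : ℕ} (y z : Fin m → X) (k : Fin (m + 1)) (h : a < (k : ℕ)) :
    pr x₀ a y z k = z ⟨k - 1, by have := k.2; omega⟩ := by
  unfold pr
  rw [dif_neg (by omega), dif_pos (by omega)]

theorem mx_lt {a : ℕ} (y z : Fin m → X) (k : Fin m) (h : (k : ℕ) < a) : mx a y z k = y k :=
  if_pos h

theorem mx_ge {a : ℕ} (y z : Fin m → X) (k : Fin m) (h : ¬ (k : ℕ) < a) : mx a y z k = z k :=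
  if_neg h

theorem sa_val {m : ℕ} (i : Fin (m + 1)) (k : Fin m) :
    ((i.succAbove k : Fin (m + 1)) : ℕ) = if (k : ℕ) < i then (k : ℕ) else k + 1 := by
  simp only [Fin.succAbove, Fin.lt_def, Fin.val_castSucc]
  split_ifs <;> simp

theorem face_lt (x₀ : X) {a : ℕ} (ha : a ≤ n) (y z : Fin (n + 1) → X) (i : Fin (n + 2))
    (hi : (i : ℕ) < a) :
    (fun k => pr x₀ a y z (i.succAbove k)) = pr x₀ (a - 1)
      (fun k => y ((⟨i, by omega⟩ : Fin (n + 1)).succAbove k))
      (fun k => z ((⟨i, by omega⟩ : Fin (n + 1)).succAbove k)) := by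
  funext k
  have hk := k.2
  have h1 := sa_val i k
  by_cases hka : (k : ℕ) ≤ a - 1
  · rw [pr_le x₀ y z (i.succAbove k) (by rw [h1]; split_ifs <;> omega)
      (by rw [h1]; split_ifs <;> omega), pr_le x₀ _ _ k hka (by omega)]
    congr 1
    apply Fin.ext
    simp only [sa_val]
  · rw [pr_gt x₀ y z (i.succAbove k) (by rw [h1]; split_ifs <;> omega),
      pr_gt x₀ _ _ k (by omega)]
    congr 1
    apply Fin.ext
    simp only [sa_val]
    split_ifs <;> omega

theorem face_gt (x₀ : X) {a : ℕ} (y z : Fin (n + 1) → X) (i : Fin (n + 2))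
    (hi : a + 1 < (i : ℕ)) :
    (fun k => pr x₀ a y z (i.succAbove k)) = pr x₀ a
      (fun k => y ((⟨i - 1, by omega⟩ : Fin (n + 1)).succAbove k))
      (fun k => z ((⟨i - 1, by omega⟩ : Fin (n + 1)).succAbove k)) := by
  funext k
  have hk := k.2
  have hi' := i.2
  have h1 := sa_val i k
  by_cases hka : (k : ℕ) ≤ a
  · rw [pr_le x₀ y z (i.succAbove k) (by rw [h1]; split_ifs <;> omega)
      (by rw [h1]; split_ifs <;> omega), pr_le x₀ _ _ k hka (by omega)]
    congr 1
    apply Fin.ext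
    simp only [sa_val]
    split_ifs <;> omega
  · rw [pr_gt x₀ y z (i.succAbove k) (by rw [h1]; split_ifs <;> omega),
      pr_gt x₀ _ _ k (by omega)]
    congr 1
    apply Fin.ext
    simp only [sa_val]
    split_ifs <;> omega

theorem face_eq (x₀ : X) {a : ℕ} (y z : Fin (n + 1) → X) (i : Fin (n + 2))
    (hi : (i : ℕ) = a) : (fun k => pr x₀ a y z (i.succAbove k)) = mx a y z := by
  funext k
  have hk := k.2
  have h1 := sa_val i k
  by_cases hka : (k : ℕ) < a
  · rw [pr_le x₀ y z (i.succAbove k) (by rw [h1]; split_ifs <;> omega)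
      (by rw [h1]; split_ifs <;> omega), mx_lt y z k hka]
    congr 1
    apply Fin.ext
    simp only [h1]
    split_ifs <;> omega
  · rw [pr_gt x₀ y z (i.succAbove k) (by rw [h1]; split_ifs <;> omega), mx_ge y z k hka]
    congr 1
    apply Fin.ext
    simp only [h1]
    split_ifs <;> omega

theorem face_eq' (x₀ : X) {a : ℕ} (y z : Fin (n + 1) → X) (i : Fin (n + 2))
    (hi : (i : ℕ) = a + 1) : (fun k => pr x₀ a y z (i.succAbove k)) = mx (a + 1) y z := by
  funext k
  have hk := k.2
  have h1 := sa_val i k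
  by_cases hka : (k : ℕ) < a + 1
  · rw [pr_le x₀ y z (i.succAbove k) (by rw [h1]; split_ifs <;> omega)
      (by rw [h1]; split_ifs <;> omega), mx_lt y z k hka]
    congr 1
    apply Fin.ext
    simp only [h1]
    split_ifs <;> omega
  · rw [pr_gt x₀ y z (i.succAbove k) (by rw [h1]; split_ifs <;> omega), mx_ge y z k hka]
    congr 1
    apply Fin.ext
    simp only [h1]
    split_ifs <;> omega

theorem pr_smul {Γ : Type} [Group Γ] [MulAction Γ X] (x₀ : X) (γ : Γ) (a : ℕ) (hm : 0 < m)
    (y z : Fin m → X) (k : Fin (m + 1)) :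
    pr x₀ a (fun i => γ • y i) (fun i => γ • z i) k = γ • pr x₀ a y z k := by
  unfold pr
  split_ifs with h1 h2
  · rfl
  · rfl
  · exfalso; omega

end faces

/-- the row sums of the prism identity -/
theorem row (A : ℕ → ℕ → ℝ) (T : ℕ → ℝ) (a n : ℕ) (h : a ≤ n) :
    ∑ i ∈ Finset.range (n + 2), (-1 : ℝ) ^ (a + i) *
      (if i < a then A (a - 1) i else if i = a then T a else if i = a + 1 then T (a + 1)
        else A a (i - 1)) =
    (∑ i ∈ Finset.range a, (-1 : ℝ) ^ (a + i) * A (a - 1) i) -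
      (∑ i ∈ Finset.range (a + 1), (-1 : ℝ) ^ (a + 1 + i) * A a i) + T a - T (a + 1) -
      ∑ i ∈ Finset.range (n + 1), (-1 : ℝ) ^ (a + i) * A a i := by
  induction n, h using Nat.le_induction with
  | base =>
    rw [Finset.sum_range_succ, Finset.sum_range_succ]
    have h1 : ∑ i ∈ Finset.range a, (-1 : ℝ) ^ (a + i) *
      (if i < a then A (a - 1) i else if i = a then T a else if i = a + 1 then T (a + 1)
        else A a (i - 1)) = ∑ i ∈ Finset.range a, (-1 : ℝ) ^ (a + i) * A (a - 1) i := by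
      refine Finset.sum_congr rfl fun i hi => ?_
      rw [if_pos (Finset.mem_range.mp hi)]
    have h2 : ∑ i ∈ Finset.range (a + 1), (-1 : ℝ) ^ (a + 1 + i) * A a i =
        -∑ i ∈ Finset.range (a + 1), (-1 : ℝ) ^ (a + i) * A a i := by
      rw [← Finset.sum_neg_distrib]
      refine Finset.sum_congr rfl fun i _ => ?_
      rw [show a + 1 + i = (a + i) + 1 by omega, pow_succ]; ring
    rw [h1, h2]
    have h3 : (-1 : ℝ) ^ (a + a) = 1 := by rw [← two_mul, pow_mul]; norm_num
    have h4 : (-1 : ℝ) ^ (a + (a + 1)) = -1 := by rw [← add_assoc, pow_succ, h3]; norm_num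
    simp only [lt_irrefl, if_false, if_true, h3, h4]
    rw [if_neg (by omega), if_neg (by omega)]
    ring
  | succ n hn ih =>
    rw [Finset.sum_range_succ, ih, Finset.sum_range_succ _ (n + 1)]
    rw [if_neg (by omega), if_neg (by omega), if_neg (by omega)]
    rw [show n + 2 - 1 = n + 1 by omega, show a + (n + 2) = a + (n + 1) + 1 by omega, pow_succ]
    ring

theorem total (A : ℕ → ℕ → ℝ) (T : ℕ → ℝ) (n : ℕ) :
    ∑ a ∈ Finset.range (n + 1), ∑ i ∈ Finset.range (n + 2), (-1 : ℝ) ^ (a + i) *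
      (if i < a then A (a - 1) i else if i = a then T a else if i = a + 1 then T (a + 1)
        else A a (i - 1)) =
    T 0 - T (n + 1) - ∑ a ∈ Finset.range n, ∑ i ∈ Finset.range (n + 1),
      (-1 : ℝ) ^ (a + i) * A a i := by
  have h1 : ∑ a ∈ Finset.range (n + 1), ∑ i ∈ Finset.range (n + 2), (-1 : ℝ) ^ (a + i) *
      (if i < a then A (a - 1) i else if i = a then T a else if i = a + 1 then T (a + 1)
        else A a (i - 1)) = ∑ a ∈ Finset.range (n + 1),
      (((∑ i ∈ Finset.range a, (-1 : ℝ) ^ (a + i) * A (a - 1) i) + T a) -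
      ((∑ i ∈ Finset.range (a + 1), (-1 : ℝ) ^ (a + 1 + i) * A (a + 1 - 1) i) + T (a + 1)) -
      ∑ i ∈ Finset.range (n + 1), (-1 : ℝ) ^ (a + i) * A a i) := by
    refine Finset.sum_congr rfl fun a ha => ?_
    rw [row A T a n (by have := Finset.mem_range.mp ha; omega)]
    simp only [Nat.add_sub_cancel]
    ring
  rw [h1, Finset.sum_sub_distrib, Finset.sum_range_succ (fun a => ∑ i ∈ Finset.range (n + 1),
    (-1 : ℝ) ^ (a + i) * A a i) n]
  rw [Finset.sum_range_sub' (fun a => (∑ i ∈ Finset.range a, (-1 : ℝ) ^ (a + i) * A (a - 1) i) +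
    T a)]
  have h2 : ∑ i ∈ Finset.range (n + 1), (-1 : ℝ) ^ (n + 1 + i) * A (n + 1 - 1) i =
        -∑ i ∈ Finset.range (n + 1), (-1 : ℝ) ^ (n + i) * A n i := by
    rw [← Finset.sum_neg_distrib]
    refine Finset.sum_congr rfl fun i _ => ?_
    rw [show n + 1 + i = (n + i) + 1 by omega, pow_succ, Nat.add_sub_cancel]; ring
  rw [h2]
  simp only [Finset.range_zero, Finset.sum_empty]
  ring

theorem main : SpecC := by
  intro X Γ _ _ n f ⟨s, hs⟩ hf hinv hcoc
  -- the cocycle `F`
  have hFcoc : ∀ g : Fin (n + 2) → Γ, ∑ i : Fin (n + 2), (-1 : ℝ) ^ (i : ℕ) *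
      L (n + 1) (fun j => f fun k => g (i.succAbove k) • s (j k)) = 0 := by
    intro g
    have h1 : ∀ i : Fin (n + 2), L (n + 1) (fun j => f fun k => g (i.succAbove k) • s (j k)) =
        L (n + 2) fun j => f ((fun k => g k • s (j k)) ∘ i.succAbove) := fun i =>
      (L_ins (n + 1) i fun j => f fun k => g (i.succAbove k) • s (j k)).symm
    simp only [h1]
    rw [← L_sum Finset.univ (fun i : Fin (n + 2) => (-1 : ℝ) ^ (i : ℕ)) (n + 2)
      (fun i j => f ((fun k => g k • s (j k)) ∘ i.succAbove)) fun i j => hf _]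
    rw [← L_const (n + 2) 0]
    refine L_congr (n + 2) ∅ fun j hj _ => hcoc _ ?_
    rintro k k' ⟨γ, hγ⟩
    refine hj (hs _ _ ⟨(g k')⁻¹ * γ * g k, ?_⟩)
    rw [mul_smul, mul_smul, hγ, inv_smul_smul]
  refine ⟨fun g => L (n + 1) fun j => f fun k => g k • s (j k), fun g => L_abs _ fun j => hf _,
    ?_, hFcoc, ?_⟩
  · intro γ g
    have : ∀ j : Fin (n + 1) → ℕ, (fun k => (γ * g k) • s (j k)) =
        fun k => γ • (g k • s (j k)) := fun j => funext fun k => mul_smul _ _ _
    simp only [this, hinv]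
  intro ι q hq
  refine ⟨fun l => ∑ a ∈ Finset.range n, (-1 : ℝ) ^ a * L n fun j =>
    f (pr (s 0) a (fun k => (l k).1 • q (l k).2) fun k => (l k).1 • s (j k)), ?_, ?_⟩
  · intro γ l
    refine Finset.sum_congr rfl fun a ha => ?_
    have hn : 0 < n := by have := Finset.mem_range.mp ha; omega
    have : ∀ j : Fin n → ℕ, (pr (s 0) a (fun k => (γ * (l k).1) • q (l k).2)
        fun k => (γ * (l k).1) • s (j k)) = fun k => γ • pr (s 0) a
          (fun k => (l k).1 • q (l k).2) (fun k => (l k).1 • s (j k)) k := by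
      intro j
      funext k
      rw [← pr_smul (s 0) γ a hn]
      simp only [mul_smul]
    simp only [this, hinv]
  · intro l hl
    set y : Fin (n + 1) → X := fun k => (l k).1 • q (l k).2 with hy
    set z : (Fin (n + 1) → ℕ) → Fin (n + 1) → X := fun j k => (l k).1 • s (j k) with hz
    -- the exceptional indices
    have hS : {m : ℕ | ∃ k : Fin (n + 1), ∃ γ : Γ, γ • s m = q (l k).2}.Finite := by
      have : {m : ℕ | ∃ k : Fin (n + 1), ∃ γ : Γ, γ • s m = q (l k).2} =
          ⋃ k : Fin (n + 1), {m : ℕ | ∃ γ : Γ, γ • s m = q (l k).2} := by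
        ext m; simp
      rw [this]
      refine Set.finite_iUnion fun k => Set.Subsingleton.finite ?_
      rintro m ⟨γ, hγ⟩ m' ⟨γ', hγ'⟩
      exact hs _ _ ⟨γ'⁻¹ * γ, by rw [mul_smul, hγ, ← hγ', inv_smul_smul]⟩
    have h0 : ∀ a, a ≤ n → L (n + 1) (fun j => ∑ i : Fin (n + 2), (-1 : ℝ) ^ (i : ℕ) *
        f ((pr (s 0) a y (z j)) ∘ i.succAbove)) = 0 := by
      intro a ha
      rw [← L_const (n + 1) 0]
      refine L_congr (n + 1) hS.toFinset fun j hj hj' => hcoc _ ?_
      have hj'' : ∀ k k' (γ : Γ), γ • s (j k) ≠ q (l k').2 := fun k k' γ h =>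
        hj' k (hS.mem_toFinset.mpr ⟨k', γ, h⟩)
      rintro k k' ⟨γ, hγ⟩
      have hk := k.2
      have hk' := k'.2
      by_cases h1 : (k : ℕ) ≤ a
      · rw [pr_le (s 0) y (z j) k h1 (by omega)] at hγ
        by_cases h2 : (k' : ℕ) ≤ a
        · rw [pr_le (s 0) y (z j) k' h2 (by omega)] at hγ
          have h3 := hq (l ⟨k, by omega⟩).2 (l ⟨k', by omega⟩).2
            ⟨((l ⟨k', by omega⟩).1)⁻¹ * γ * (l ⟨k, by omega⟩).1, by
              rw [mul_smul, mul_smul]
              simp only [hy] at hγ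
              rw [hγ, inv_smul_smul]⟩
          have h4 := hl h3
          exact Fin.ext (by simpa using congrArg Fin.val h4)
        · exfalso
          rw [pr_gt (s 0) y (z j) k' (by omega)] at hγ
          simp only [hy, hz] at hγ
          refine hj'' ⟨(k' : ℕ) - 1, by omega⟩ ⟨k, by omega⟩
            (((l ⟨k, by omega⟩).1)⁻¹ * γ⁻¹ * (l ⟨(k' : ℕ) - 1, by omega⟩).1) ?_
          rw [mul_smul, mul_smul, ← hγ, inv_smul_smul, inv_smul_smul]
      · rw [pr_gt (s 0) y (z j) k (by omega)] at hγ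
        by_cases h2 : (k' : ℕ) ≤ a
        · exfalso
          rw [pr_le (s 0) y (z j) k' h2 (by omega)] at hγ
          simp only [hy, hz] at hγ
          refine hj'' ⟨(k : ℕ) - 1, by omega⟩ ⟨k', by omega⟩
            (((l ⟨k', by omega⟩).1)⁻¹ * γ * (l ⟨(k : ℕ) - 1, by omega⟩).1) ?_
          rw [mul_smul, mul_smul, hγ, inv_smul_smul]
        · rw [pr_gt (s 0) y (z j) k' (by omega)] at hγ
          simp only [hz] at hγ
          have h3 := hj (hs _ _ ⟨((l ⟨(k' : ℕ) - 1, by omega⟩).1)⁻¹ * γ *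
            (l ⟨(k : ℕ) - 1, by omega⟩).1, by
              rw [mul_smul, mul_smul, hγ, inv_smul_smul]⟩)
          have h4 := congrArg Fin.val h3
          simp only at h4
          exact Fin.ext (by omega)
    -- abbreviations
    set T : ℕ → ℝ := fun a => L (n + 1) fun j => f (mx a y (z j)) with hT
    set A : ℕ → ℕ → ℝ := fun a i => if h : i < n + 1 then L n fun j =>
      f (pr (s 0) a (fun k => y ((⟨i, h⟩ : Fin (n + 1)).succAbove k)) fun k =>
        (l ((⟨i, h⟩ : Fin (n + 1)).succAbove k)).1 • s (j k)) else 0 with hA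
    have h1 : ∀ a, a ≤ n → ∀ i : Fin (n + 2), L (n + 1) (fun j =>
        f ((pr (s 0) a y (z j)) ∘ i.succAbove)) =
        (if (i : ℕ) < a then A (a - 1) i else if (i : ℕ) = a then T a
          else if (i : ℕ) = a + 1 then T (a + 1) else A a (i - 1)) := by
      intro a ha i
      have hi := i.2
      split_ifs with c1 c2 c3
      · have : ∀ j, (pr (s 0) a y (z j)) ∘ i.succAbove = _ := fun j =>
          face_lt (s 0) ha y (z j) i c1
        simp only [this, hA]
        rw [dif_pos (by omega)]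
        exact L_ins n ⟨i, by omega⟩ fun j => f (pr (s 0) (a - 1)
          (fun k => y ((⟨i, by omega⟩ : Fin (n + 1)).succAbove k)) fun k =>
          (l ((⟨i, by omega⟩ : Fin (n + 1)).succAbove k)).1 • s (j k))
      · have : ∀ j, (pr (s 0) a y (z j)) ∘ i.succAbove = _ := fun j =>
          face_eq (s 0) y (z j) i c2
        simp only [this, hT]
      · have : ∀ j, (pr (s 0) a y (z j)) ∘ i.succAbove = _ := fun j =>
          face_eq' (s 0) y (z j) i c3
        simp only [this, hT]
      · have : ∀ j, (pr (s 0) a y (z j)) ∘ i.succAbove = _ := fun j =>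
          face_gt (s 0) y (z j) i (by omega)
        simp only [this, hA]
        rw [dif_pos (by omega)]
        exact L_ins n ⟨i - 1, by omega⟩ fun j => f (pr (s 0) a
          (fun k => y ((⟨i - 1, by omega⟩ : Fin (n + 1)).succAbove k)) fun k =>
          (l ((⟨i - 1, by omega⟩ : Fin (n + 1)).succAbove k)).1 • s (j k))
    have h2 : ∀ a, a ≤ n → ∑ i ∈ Finset.range (n + 2), (-1 : ℝ) ^ i *
      (if i < a then A (a - 1) i else if i = a then T a else if i = a + 1 then T (a + 1)
        else A a (i - 1)) = 0 := by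
      intro a ha
      rw [Finset.sum_range]
      rw [← h0 a ha]
      rw [L_sum Finset.univ (fun i : Fin (n + 2) => (-1 : ℝ) ^ (i : ℕ)) (n + 1)
        (fun i j => f ((pr (s 0) a y (z j)) ∘ i.succAbove)) fun i j => hf _]
      exact Finset.sum_congr rfl fun i _ => by rw [h1 a ha i]
    have h3 := total A T n
    rw [Finset.sum_eq_zero] at h3
    swap
    · intro a ha
      have : ∀ i ∈ Finset.range (n + 2), (-1 : ℝ) ^ (a + i) *
        (if i < a then A (a - 1) i else if i = a then T a else if i = a + 1 then T (a + 1)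
          else A a (i - 1)) = (-1 : ℝ) ^ a * ((-1 : ℝ) ^ i *
        (if i < a then A (a - 1) i else if i = a then T a else if i = a + 1 then T (a + 1)
          else A a (i - 1))) := fun i _ => by rw [pow_add, mul_assoc]
      rw [Finset.sum_congr rfl this, ← Finset.mul_sum,
        h2 a (by have := Finset.mem_range.mp ha; omega), mul_zero]
    have hT0 : T 0 = L (n + 1) fun j => f fun k => (l k).1 • s (j k) := by
      simp only [hT]
      congr 1
    have hT1 : T (n + 1) = f y := by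
      have : ∀ j, mx (n + 1) y (z j) = y := fun j => funext fun k => mx_lt y (z j) k k.2
      simp only [hT, this]
      exact L_const _ _
    have h4 : ∑ a ∈ Finset.range n, ∑ i ∈ Finset.range (n + 1), (-1 : ℝ) ^ (a + i) * A a i =
        ∑ i : Fin (n + 1), (-1 : ℝ) ^ (i : ℕ) * ∑ a ∈ Finset.range n, (-1 : ℝ) ^ a * L n fun j =>
          f (pr (s 0) a (fun k => ((l ∘ i.succAbove) k).1 • q ((l ∘ i.succAbove) k).2)
            fun k => ((l ∘ i.succAbove) k).1 • s (j k)) := by
      rw [Finset.sum_comm, Finset.sum_range]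
      refine Finset.sum_congr rfl fun i _ => ?_
      rw [Finset.mul_sum]
      refine Finset.sum_congr rfl fun a _ => ?_
      simp only [hA]
      rw [dif_pos i.2, pow_add]
      simp only [Function.comp_apply, hy]
      ring
    rw [← h4]
    change L (n + 1) (fun j => f fun k => (l k).1 • s (j k)) - f y = _
    rw [← hT0, ← hT1]
    linarith

end Vale.Agent.P223.MT.U
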