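import Vale.Agent.P223.MT.A

/-! Blocks Vx (simplices with given vertices) and V (functions of the vertices). -/

namespace Vale.Agent.P223.MT

open H (Simp Chain face bd l1)

variable {M X : Type} [TopologicalSpace M] [TopologicalSpace X] {k j l n m : ℕ}

theorem Vx.main : SpecVert := by
  intro X _ _ k x
  obtain ⟨γ, t, ht⟩ := PathConnectedSpace.exists_path_through_family' x
  have hmem : ∀ y : stdSimplex ℝ (Fin (k + 1)), (∑ i, y i * (t i : ℝ)) ∈ unitInterval := by
    intro y
    refine ⟨Finset.sum_nonneg fun i _ => mul_nonneg (stdSimplex.zero_le y i) (t i).2.1, ?_⟩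
    calc ∑ i, y i * (t i : ℝ) ≤ ∑ i, y i :=
          Finset.sum_le_sum fun i _ => mul_le_of_le_one_right (stdSimplex.zero_le y i) (t i).2.2
      _ = 1 := stdSimplex.sum_eq_one y
  refine ⟨⟨fun y => γ ⟨∑ i, y i * (t i : ℝ), hmem y⟩, ?_⟩, fun i => ?_⟩
  · refine γ.continuous.comp (Continuous.subtype_mk ?_ _)
    refine continuous_finsetSum _ fun i _ => Continuous.mul ?_ continuous_const
    exact (continuous_apply i).comp continuous_subtype_val
  · change γ ⟨∑ a, (stdSimplex.vertex i : stdSimplex ℝ (Fin (k + 1))) a * (t a : ℝ), _⟩ = x i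
    rw [← ht i]
    congr 1
    apply Subtype.ext
    change ∑ a, (stdSimplex.vertex i : stdSimplex ℝ (Fin (k + 1))) a * (t a : ℝ) = t i
    rw [Finset.sum_eq_single i]
    · rw [stdSimplex.vertex_coe]; simp
    · intro b _ hb
      rw [stdSimplex.vertex_coe, Pi.single_eq_of_ne hb, zero_mul]
    · intro h; exact absurd (Finset.mem_univ _) h

/-- an edge as a path -/
def edge (σ : Simp 2 X) : Path (vert σ 0) (vert σ 1) where
  toFun t := σ (stdSimplexHomeomorphUnitInterval.symm t)
  continuous_toFun := σ.continuous.comp stdSimplexHomeomorphUnitInterval.symm.continuous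
  source' := by
    change σ _ = σ _
    congr 1
    rw [Homeomorph.symm_apply_eq]
    apply Subtype.ext
    change (0 : ℝ) = (stdSimplex.vertex (S := ℝ) (0 : Fin 2)) 1
    rw [stdSimplex.vertex_coe]; simp
  target' := by
    change σ _ = σ _
    congr 1
    rw [Homeomorph.symm_apply_eq]
    apply Subtype.ext
    change (1 : ℝ) = (stdSimplex.vertex (S := ℝ) (1 : Fin 2)) 1
    rw [stdSimplex.vertex_coe]; simp

theorem homRel_edge [SimplyConnectedSpace X] (σ σ' : Simp 2 X) (h : vert σ = vert σ') :
    HomRel σ σ' := by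
  have h0 : vert σ 0 = vert σ' 0 := by rw [h]
  have h1 : vert σ 1 = vert σ' 1 := by rw [h]
  obtain ⟨F⟩ := SimplyConnectedSpace.paths_homotopic (edge σ) ((edge σ').cast h0 h1)
  refine ⟨⟨⟨⟨fun z => F (z.1, stdSimplexHomeomorphUnitInterval z.2), ?_⟩, fun x => ?_,
    fun x => ?_⟩, ?_⟩⟩
  · exact F.continuous.comp (continuous_fst.prodMk
      (stdSimplexHomeomorphUnitInterval.continuous.comp continuous_snd))
  · change F (0, stdSimplexHomeomorphUnitInterval x) = σ x
    rw [F.apply_zero]
    change σ (stdSimplexHomeomorphUnitInterval.symm (stdSimplexHomeomorphUnitInterval x)) = σ x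
    rw [Homeomorph.symm_apply_apply]
  · change F (1, stdSimplexHomeomorphUnitInterval x) = σ' x
    rw [F.apply_one]
    change σ' (stdSimplexHomeomorphUnitInterval.symm (stdSimplexHomeomorphUnitInterval x)) = σ' x
    rw [Homeomorph.symm_apply_apply]
  · rintro s x ⟨i, hi⟩
    change F (s, stdSimplexHomeomorphUnitInterval x) = σ x
    have hsum : x 0 + x 1 = 1 := stdSimplex.add_eq_one x
    have hx : stdSimplexHomeomorphUnitInterval x = 0 ∨ stdSimplexHomeomorphUnitInterval x = 1 := by
      fin_cases i
      · right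
        apply Subtype.ext
        change x 1 = 1
        have : x 0 = 0 := hi
        linarith
      · left
        apply Subtype.ext
        exact hi
    have hx' : x = stdSimplexHomeomorphUnitInterval.symm (stdSimplexHomeomorphUnitInterval x) :=
      (Homeomorph.symm_apply_apply _ _).symm
    have h2 : σ x = edge σ (stdSimplexHomeomorphUnitInterval x) := by
      change σ x = σ (stdSimplexHomeomorphUnitInterval.symm (stdSimplexHomeomorphUnitInterval x))
      rw [Homeomorph.symm_apply_apply]
    rw [h2]
    rcases hx with hx | hx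
    · rw [hx, F.source, (edge σ).source]
    · rw [hx, F.target, (edge σ).target]

theorem HomRel.comp {σ σ' : Simp k X} (h : HomRel σ σ') (π : C(X, M)) :
    HomRel (π.comp σ) (π.comp σ') :=
  h.comp_continuousMap π

theorem rel_one [SimplyConnectedSpace X] (π : C(X, M)) (σ σ' : Simp k X)
    (h : vert σ = vert σ') : Rel 1 (π.comp σ) (π.comp σ') := by
  intro f
  rw [ContinuousMap.comp_assoc, ContinuousMap.comp_assoc]
  refine HomRel.comp (homRel_edge _ _ ?_) π
  funext i
  rw [vert_comp, vert_comp, h]

theorem V.main (hA : SpecA) (hV : SpecVert) : SpecB := by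
  intro M X Γ _ _ _ _ _ _ π hπ n c hn hc hc1
  obtain ⟨c', b, hc', hb, hr⟩ := hA M n c hn hc hc1
  classical
  choose s hs using fun x : Fin (n + 1) → X => hV X n x
  have hs' : ∀ x, vert (s x) = x := fun x => funext (hs x)
  have hval : ∀ σ : Simp (n + 1) X, (Function.Injective fun i => π (vert σ i)) →
      c' (π.comp (s (vert σ))) = c' (π.comp σ) := by
    intro σ hσ
    refine hr _ _ ?_ (rel_one π _ _ (hs' _))
    have : vert (π.comp (s (vert σ))) = fun i => π (vert σ i) := by
      funext i
      change π (vert (s (vert σ)) i) = _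
      rw [hs']
    rw [this]
    exact hσ
  have hcc : IsCoc c' := fun τ => by
    have e1 : ∀ i : Fin (n + 2), (-1 : ℝ) ^ (i : ℕ) * c' (τ.comp (face (n + 1) i)) =
        (-1 : ℝ) ^ (i : ℕ) * c (τ.comp (face (n + 1) i)) +
        (-1 : ℝ) ^ (i : ℕ) * Cob b (τ.comp (face (n + 1) i)) := fun i => by rw [hb]; ring
    rw [Finset.sum_congr rfl fun i _ => e1 i, Finset.sum_add_distrib, hc τ, coc_cob b τ,
      add_zero]
  refine ⟨fun x => if Function.Injective (fun i => π (x i)) then c' (π.comp (s x)) else 0, b,
    fun x => ?_, fun γ x => ?_, fun σ hσ => ?_, fun x hx => ?_⟩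
  · by_cases h : Function.Injective (fun i => π (x i))
    · simp only [if_pos h]; exact hc' _
    · simp only [if_neg h, abs_zero]; exact zero_le_one
  · have hpi : ∀ y, π (γ • y) = π y := fun y => ((hπ y (γ • y)).2 ⟨γ, rfl⟩).symm
    have h1 : (fun i => π (γ • x i)) = fun i => π (x i) := funext fun i => hpi _
    simp only [h1]
    by_cases h : Function.Injective (fun i => π (x i))
    · rw [if_pos h, if_pos h]
      let τ : Simp (n + 1) X := ⟨fun y => γ • s x y, (s x).continuous.const_smul γ⟩
      have h2 : vert τ = fun i => γ • x i := funext fun i => by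
        change γ • vert (s x) i = _
        rw [hs']
      have h3 : π.comp τ = π.comp (s x) := by
        ext y; exact hpi _
      have h4 := hval τ (by rw [h2]; rw [h1]; exact h)
      rw [h2, h3] at h4
      exact h4
    · rw [if_neg h, if_neg h]
  · exact (if_pos hσ).trans ((hval σ hσ).trans (hb _))
  · obtain ⟨τ, hτ⟩ := hV X (n + 1) x
    refine Eq.trans (Finset.sum_congr rfl fun i _ => ?_) (hcc (π.comp τ))
    have h1 : vert (τ.comp (face (n + 1) i)) = x ∘ i.succAbove := by
      funext a
      rw [face_eq, vert_comp, hτ]; rfl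
    have h2 : Function.Injective fun a => π ((x ∘ i.succAbove) a) :=
      fun a a' haa => Fin.succAbove_right_injective (hx haa)
    refine congrArg (fun r => (-1 : ℝ) ^ (i : ℕ) * r) ((if_pos h2).trans ?_)
    rw [← h1]
    exact hval _ (by rw [h1]; exact h2)

end Vale.Agent.P223.MT
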