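import Vale.Agent.P223.MT.C
import Vale.Agent.P223.MT.HEP

/-! Block W: the end of a homotopy is determined by the beginning and the faces. -/

namespace Vale.Agent.P223.MT.W

open H (Simp)
open C (mix mix_zero mix_one mix_self cont_mix)

/-- straight line in the unit interval -/
noncomputable def mixI (s t t' : I) : I :=
  ⟨(1 - (s : ℝ)) * t + s * t', add_nonneg (mul_nonneg (sub_nonneg.2 s.2.2) t.2.1)
    (mul_nonneg s.2.1 t'.2.1), by
    have h1 := mul_le_mul_of_nonneg_left t.2.2 (sub_nonneg.2 s.2.2)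
    have h2 := mul_le_mul_of_nonneg_left t'.2.2 s.2.1
    linarith⟩

theorem mixI_zero (t t' : I) : mixI 0 t t' = t := Subtype.ext (by simp [mixI])

theorem mixI_one (t t' : I) : mixI 1 t t' = t' := Subtype.ext (by simp [mixI])

theorem mixI_self (s t : I) : mixI s t t = t := Subtype.ext (by simp only [mixI]; ring)

theorem cont_mixI : Continuous fun p : I × I × I => mixI p.1 p.2.1 p.2.2 := by
  unfold mixI
  refine Continuous.subtype_mk ?_ _
  fun_prop

variable {M : Type} [TopologicalSpace M] {k : ℕ}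

/-- compress to the bottom and the faces -/
theorem homRel_ret (L : Hom (k + 1) M) :
    HomRel (L.at 1) ⟨fun x => L (ret (1, x)), L.continuous.comp ((continuous_ret k).comp
      (continuous_const.prodMk continuous_id))⟩ := by
  have hr : Continuous fun x : Dl (k + 1) => ret ((1 : I), x) :=
    (continuous_ret k).comp (continuous_const.prodMk continuous_id)
  have hc : Continuous fun p : I × Dl (k + 1) =>
      L (mixI p.1 1 (ret (1, p.2)).1, mix p.1 p.2 (ret (1, p.2)).2) := by
    refine L.continuous.comp (Continuous.prodMk ?_ ?_)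
    · exact cont_mixI.comp (continuous_fst.prodMk (continuous_const.prodMk
        (continuous_fst.comp (hr.comp continuous_snd))))
    · exact cont_mix.comp (continuous_fst.prodMk (continuous_snd.prodMk
        (continuous_snd.comp (hr.comp continuous_snd))))
  refine ⟨⟨⟨⟨_, hc⟩, fun x => ?_, fun x => ?_⟩, fun s x hx => ?_⟩⟩
  · change L (mixI 0 1 (ret (1, x)).1, mix 0 x (ret (1, x)).2) = L (1, x)
    rw [mixI_zero, mix_zero]
  · change L (mixI 1 1 (ret (1, x)).1, mix 1 x (ret (1, x)).2) = L (ret (1, x))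
    rw [mixI_one, mix_one]
  · obtain ⟨i, hi⟩ := hx
    change L (mixI s 1 (ret (1, x)).1, mix s x (ret (1, x)).2) = L (1, x)
    rw [ret_of_face 1 x i hi, mixI_self, mix_self]

/-- homotopies which agree at the beginning and on the faces -/
theorem agree (L L' : Hom (k + 1) M) (h0 : ∀ x, L (0, x) = L' (0, x))
    (h1 : ∀ t, ∀ x ∈ bdry (k + 1), L (t, x) = L' (t, x)) : HomRel (L.at 1) (L'.at 1) := by
  have e : ∀ x, L (ret (1, x)) = L' (ret (1, x)) := by
    intro x
    rcases ret_mem ((1 : I), x) with h | h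
    · have : ret ((1 : I), x) = (0, (ret ((1 : I), x)).2) := Prod.ext h rfl
      rw [this]; exact h0 _
    · exact h1 _ _ h
  have h2 := homRel_ret L
  have h3 := homRel_ret L'
  have e2 : (⟨fun x => L (ret (1, x)), L.continuous.comp ((continuous_ret k).comp
      (continuous_const.prodMk continuous_id))⟩ : Simp (k + 1) M) =
      ⟨fun x => L' (ret (1, x)), L'.continuous.comp ((continuous_ret k).comp
      (continuous_const.prodMk continuous_id))⟩ := ContinuousMap.ext e
  rw [e2] at h2
  exact h2.trans h3.symm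

theorem main : SpecWd := by
  intro M _ k K K' h0 h1
  obtain ⟨F0⟩ := h0
  have F' : ∀ i, Nonempty ((K.fc i).HomotopyRel (K'.fc i)
    {p | p.2 ∈ bdry k ∨ p.1 = 0 ∨ p.1 = 1}) := h1
  let F := fun i => (F' i).some
  let s0 : C(Dl (k + 1), C(I, M)) := ContinuousMap.curry
    (⟨fun p => F0 (p.2, p.1), by fun_prop⟩ : C(Dl (k + 1) × I, M))
  let G : Fin (k + 1) → C(I × Dl k, C(I, M)) := fun i => ContinuousMap.curry
    (⟨fun p => F i (p.2, p.1), by fun_prop⟩ : C((I × Dl k) × I, M))
  have hG : ∀ i s (p : I × Dl k), p.2 ∈ bdry k ∨ p.1 = 0 ∨ p.1 = 1 → F i (s, p) = K.fc i p :=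
    fun i s p hp => (F i).eq_fst s hp
  have hF0 : ∀ s, ∀ x ∈ bdry (k + 1), F0 (s, x) = K.at 0 x := fun s x hx => F0.eq_fst s hx
  obtain ⟨Q, hQ0, hQ1⟩ := hep s0 G (fun i y => by
    refine ContinuousMap.ext fun s => ?_
    change F i (s, (0, y)) = F0 (s, H.face k i y)
    rw [hG i s (0, y) (Or.inr (Or.inl rfl)), hF0 s _ ⟨i, face_self k i y⟩]
    rfl) (fun i j y y' hyy t => by
    refine ContinuousMap.ext fun s => ?_
    change F i (s, (t, y)) = F j (s, (t, y'))
    by_cases hij : i = j
    · subst hij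
      rw [face_inj k i hyy]
    · obtain ⟨a, ha⟩ := Fin.exists_succAbove_eq (Ne.symm hij)
      obtain ⟨b, hb⟩ := Fin.exists_succAbove_eq hij
      have hy : y ∈ bdry k := ⟨a, by
        rw [← face_succAbove k i y a, ha, hyy, face_self]⟩
      have hy' : y' ∈ bdry k := ⟨b, by
        rw [← face_succAbove k j y' b, hb, ← hyy, face_self]⟩
      rw [hG i s (t, y) (Or.inl hy), hG j s (t, y') (Or.inl hy')]
      change K (t, H.face k i y) = K (t, H.face k j y')
      rw [hyy])
  have hcQ : Continuous fun p : I × (I × Dl (k + 1)) => Q p.2 p.1 :=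
    (Q.continuous.comp continuous_snd).eval continuous_fst
  let Qs : I → Hom (k + 1) M := fun s => ⟨fun p => Q p s, by fun_prop⟩
  have e0 : HomRel (K.at 1) ((Qs 0).at 1) := by
    refine agree _ _ (fun x => ?_) (fun t x hx => ?_)
    · change K (0, x) = Q (0, x) 0
      rw [hQ0]
      exact (F0.apply_zero x).symm
    · obtain ⟨i, hi⟩ := hx
      rw [← face_drop i x hi]
      change _ = Q (t, H.face k i _) 0
      rw [hQ1]
      exact ((F i).apply_zero (t, drop i x hi)).symm
  have e1 : HomRel (K'.at 1) ((Qs 1).at 1) := by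
    refine agree _ _ (fun x => ?_) (fun t x hx => ?_)
    · change K' (0, x) = Q (0, x) 1
      rw [hQ0]
      exact (F0.apply_one x).symm
    · obtain ⟨i, hi⟩ := hx
      rw [← face_drop i x hi]
      change _ = Q (t, H.face k i _) 1
      rw [hQ1]
      exact ((F i).apply_one (t, drop i x hi)).symm
  have e2 : HomRel ((Qs 0).at 1) ((Qs 1).at 1) := by
    refine ⟨⟨⟨⟨fun p => Q (1, p.2) p.1, by fun_prop⟩, fun x => rfl, fun x => rfl⟩, ?_⟩⟩
    rintro s x ⟨i, hi⟩
    change Q (1, x) s = Q (1, x) 0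
    rw [← face_drop i x hi, hQ1]
    change F i (s, (1, drop i x hi)) = F i (0, (1, drop i x hi))
    rw [hG i s _ (Or.inr (Or.inr rfl)), hG i 0 _ (Or.inr (Or.inr rfl))]
  exact e0.trans (e2.trans e1.symm)

end Vale.Agent.P223.MT.W
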