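import Vale.Agent.P223.MT.St
import Vale.Agent.P223.MT.A
import Vale.Agent.P223.MT.V
import Vale.Agent.P223.MT.MT
import Vale.Agent.P223.MT.P
import Vale.Agent.P223.MT.BlockES
import Vale.Agent.P223.MT.Mn
import Vale.Agent.P223.MT.D
import Vale.Agent.P223.MT.U
import Vale.Agent.P223.MT.CommB
import Vale.Agent.P223.MT.W
import Vale.Agent.P223.MT.Hn

/-! The mapping theorem. -/

namespace Vale.Agent.P223.MT

theorem step : SpecStep :=
  St.main P.main BlockES.sys W.main Hn.hn1 (Hn.hn2 BlockES.ext Hn.hn1) Comm.main Mn.main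

/-- The mapping theorem for bounded cocycles. -/
theorem mt : SpecMT := assembly (V.main (A.main P.main step) Vx.main) U.main

/-- Duality. -/
theorem dual : SpecDual := D.main

end Vale.Agent.P223.MT
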