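import Vale.Agent.P223.MT.Spec

/-! Basic facts about faces, vertices and homotopies relative to the boundary. -/

namespace Vale.Agent.P223.MT

open H (Simp Chain face bd l1)

variable {M : Type} [TopologicalSpace M] {k j l n m : ℕ}

theorem sub_apply (f : Fin j ↪o Fin k) (x : stdSimplex ℝ (Fin j)) (i : Fin j) :
    sub f x (f i) = x i := by
  change stdSimplex.map f x (f i) = x i
  have := congrFun (stdSimplex.map_coe (S := ℝ) f x) (f i)
  refine this.trans ?_
  rw [FunOnFinite.linearMap_apply_apply]
  rw [Finset.sum_eq_single i]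
  · intro b hb hbi
    exact absurd (f.injective (by simpa using hb)) hbi
  · intro h; exact absurd (by simp) h

theorem sub_apply_of_not_mem (f : Fin j ↪o Fin k) (x : stdSimplex ℝ (Fin j)) (i : Fin k)
    (hi : i ∉ Set.range f) : sub f x i = 0 := by
  change stdSimplex.map f x i = 0
  have := congrFun (stdSimplex.map_coe (S := ℝ) f x) i
  refine this.trans ?_
  rw [FunOnFinite.linearMap_apply_apply]
  refine Finset.sum_eq_zero fun b hb => ?_
  exact absurd ⟨b, by simpa using hb⟩ hi

theorem sub_comp (f : Fin k ↪o Fin l) (g : Fin j ↪o Fin k) :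
    (sub f).comp (sub g) = sub (g.trans f) := by
  ext x
  change stdSimplex.map f (stdSimplex.map g x) _ = stdSimplex.map (g.trans f) x _
  rw [stdSimplex.map_comp_apply]; rfl

theorem face_eq (i : Fin (k + 1)) : face k i = sub (Fin.succAboveOrderEmb i) := rfl

theorem emb_eq_id (f : Fin k ↪o Fin k) : (f : Fin k → Fin k) = id := by
  have h := Subsingleton.elim
    (RelIso.ofSurjective f (Finite.injective_iff_surjective.1 f.injective)) (OrderIso.refl _)
  funext i
  exact congrArg (fun e : Fin k ≃o Fin k => e i) h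

theorem sub_eq_id (f : Fin k ↪o Fin k) : sub f = ContinuousMap.id _ := by
  ext x
  change stdSimplex.map f x _ = x _
  rw [emb_eq_id f, stdSimplex.map_id_apply]

/-- an embedding which misses a point factors through a face -/
theorem factor (f : Fin j ↪o Fin (k + 1)) (i : Fin (k + 1)) (hi : i ∉ Set.range f) :
    ∃ g : Fin j ↪o Fin k, f = g.trans (Fin.succAboveOrderEmb i) := by
  have h : ∀ a : Fin j, ∃ b : Fin k, i.succAbove b = f a := fun a =>
    Fin.exists_succAbove_eq fun e => hi ⟨a, e⟩
  choose g hg using h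
  refine ⟨OrderEmbedding.ofMapLEIff g fun a b => ?_, ?_⟩
  · rw [← f.le_iff_le, ← hg a, ← hg b, Fin.succAbove_le_succAbove_iff]
  · ext a
    exact congrArg Fin.val (hg a).symm

/-- an embedding which is not an equality misses a point -/
theorem exists_not_mem (f : Fin j ↪o Fin k) (h : j ≠ k) : ∃ i, i ∉ Set.range f := by
  by_contra hc
  push Not at hc
  have hb : Function.Bijective f := ⟨f.injective, fun i => hc i⟩
  exact h (by simpa using Fintype.card_of_bijective hb)

/-- induction over the faces -/
theorem face_induction {P : ∀ k j : ℕ, (Fin j ↪o Fin k) → Prop}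
    (h0 : ∀ k (f : Fin k ↪o Fin k), P k k f)
    (h1 : ∀ k j (g : Fin j ↪o Fin k) (i : Fin (k + 1)), P k j g →
      P (k + 1) j (g.trans (Fin.succAboveOrderEmb i))) :
    ∀ k j (f : Fin j ↪o Fin k), P k j f := by
  intro k
  induction k with
  | zero =>
    intro j f
    obtain rfl : j = 0 := by
      rcases Nat.eq_zero_or_pos j with h | h
      · exact h
      · exact (f ⟨0, h⟩).elim0
    exact h0 0 f
  | succ k ih =>
    intro j f
    by_cases h : j = k + 1
    · subst h; exact h0 _ f
    · obtain ⟨i, hi⟩ := exists_not_mem f h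
      obtain ⟨g, rfl⟩ := factor f i hi
      exact h1 k j g i (ih j g)

/-- the vertex embedding -/
def pt (i : Fin k) : Fin 1 ↪o Fin k := OrderEmbedding.ofMapLEIff (fun _ => i) fun a b => by
  simp [Subsingleton.elim a b]

theorem sub_vertex (f : Fin j ↪o Fin k) (i : Fin j) :
    sub f (stdSimplex.vertex i) = stdSimplex.vertex (f i) :=
  stdSimplex.map_vertex _ _

theorem vert_comp (σ : Simp k M) (f : Fin j ↪o Fin k) (i : Fin j) :
    vert (σ.comp (sub f)) i = vert σ (f i) := by
  change σ (sub f (stdSimplex.vertex i)) = _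
  rw [sub_vertex]; rfl

theorem vertex_mem_bdry (i : Fin (k + 2)) : stdSimplex.vertex i ∈ bdry (k + 2) := by
  obtain ⟨j, hj⟩ : ∃ j, j ≠ i := exists_ne i
  refine ⟨j, ?_⟩
  rw [stdSimplex.vertex_coe]
  exact Pi.single_eq_of_ne hj _

theorem not_mem_range (i : Fin (k + 1)) :
    i ∉ Set.range (Fin.succAboveOrderEmb i) := by
  rintro ⟨a, ha⟩
  exact Fin.succAbove_ne i a ha

theorem face_apply_self (i : Fin (k + 1)) (x : stdSimplex ℝ (Fin k)) : face k i x i = 0 :=
  sub_apply_of_not_mem (Fin.succAboveOrderEmb i) x i (not_mem_range i)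

theorem face_mem_bdry (i : Fin (k + 1)) (x : stdSimplex ℝ (Fin k)) : face k i x ∈ bdry (k + 1) :=
  ⟨i, face_apply_self i x⟩

theorem face_apply (i : Fin (k + 1)) (x : stdSimplex ℝ (Fin k)) (a : Fin k) :
    face k i x (i.succAbove a) = x a := sub_apply (Fin.succAboveOrderEmb i) x a

/-- a point of the boundary lies on a face -/
theorem exists_face {x : stdSimplex ℝ (Fin (k + 1))} (i : Fin (k + 1)) (hx : x i = 0) :
    ∃ y, face k i y = x := by
  have hs : ∑ a, x (i.succAbove a) = 1 := by
    have := stdSimplex.sum_eq_one x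
    rw [Fin.sum_univ_succAbove _ i, hx, zero_add] at this
    exact this
  refine ⟨⟨fun a => x (i.succAbove a), fun a => stdSimplex.zero_le x _, hs⟩, ?_⟩
  ext a
  refine Fin.succAboveCases i ?_ (fun b => ?_) a
  · rw [face_apply_self, hx]
  · rw [face_apply]; rfl

end Vale.Agent.P223.MT
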