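import Vale.Agent.P223.MT.Spec

/-! Block C: self homotopies of a simplex relative to the boundary commute. -/

namespace Vale.Agent.P223.MT.C

open CategoryTheory
open H (Simp)

theorem comm_aux {G : Type*} [Groupoid G] {x y : G} (t1 t2 : x ⟶ y) (F1 F2 : (x ⟶ x) → (y ⟶ y))
    (h1 : ∀ a, a ≫ t1 = t1 ≫ F1 a) (h2 : ∀ b, b ≫ t2 = t2 ≫ F2 b)
    (h3 : ∀ a b, F1 a ≫ F2 b = F2 b ≫ F1 a) (a b : x ⟶ x) : a ≫ b = b ≫ a := by
  have e1 : ∀ a, F1 a = inv t1 ≫ a ≫ t1 := fun a => by simp [h1]
  have e2 : ∀ b, F2 b = inv t2 ≫ b ≫ t2 := fun a => by simp [h2]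
  have h := h3 a (t2 ≫ inv t1 ≫ b ≫ t1 ≫ inv t2)
  rw [e1, e2] at h
  simp only [Category.assoc, IsIso.inv_hom_id_assoc, IsIso.hom_inv_id_assoc, IsIso.inv_hom_id,
    Category.comp_id, cancel_epi] at h
  rw [← Category.assoc, ← Category.assoc, cancel_mono] at h
  exact h

theorem comm_of_mul {Y : Type} [TopologicalSpace Y] (μ : C(Y × Y, Y)) (r : Y) (f1 f2 : C(Y, Y))
    (h1 : f1 = ⟨fun y => μ (y, r), by fun_prop⟩) (h2 : f2 = ⟨fun y => μ (r, y), by fun_prop⟩)
    (H1 : (ContinuousMap.id Y).Homotopic f1) (H2 : (ContinuousMap.id Y).Homotopic f2)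
    (a b : Path r r) : (a.trans b).Homotopic (b.trans a) := by
  obtain ⟨H1⟩ := H1
  obtain ⟨H2⟩ := H2
  subst h1 h2
  set f1 : C(Y, Y) := ⟨fun y => μ (y, r), by fun_prop⟩
  set f2 : C(Y, Y) := ⟨fun y => μ (r, y), by fun_prop⟩
  let x : FundamentalGroupoid Y := ⟨r⟩
  let y : FundamentalGroupoid Y := ⟨μ (r, r)⟩
  let t1 : x ⟶ y := Path.Homotopic.Quotient.mk (H1.evalAt r)
  let t2 : x ⟶ y := Path.Homotopic.Quotient.mk (H2.evalAt r)
  let F1 : (x ⟶ x) → (y ⟶ y) := fun a => Path.Homotopic.Quotient.map a f1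
  let F2 : (x ⟶ x) → (y ⟶ y) := fun a => Path.Homotopic.Quotient.map a f2
  have key := comm_aux t1 t2 F1 F2 ?_ ?_ ?_ (Path.Homotopic.Quotient.mk a)
    (Path.Homotopic.Quotient.mk b)
  · exact Path.Homotopic.Quotient.exact key
  · intro p
    induction p using Path.Homotopic.Quotient.ind with | mk p =>
    exact Path.Homotopic.Quotient.eq.2 (Path.Homotopic.map_trans_evalAt H1 p)
  · intro p
    induction p using Path.Homotopic.Quotient.ind with | mk p =>
    exact Path.Homotopic.Quotient.eq.2 (Path.Homotopic.map_trans_evalAt H2 p)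
  · intro p q
    induction p using Path.Homotopic.Quotient.ind with | mk p =>
    induction q using Path.Homotopic.Quotient.ind with | mk q =>
    have e1 : F1 (Path.Homotopic.Quotient.mk p) = Path.Homotopic.Quotient.map
      (Path.Homotopic.Quotient.mk (p.prod (Path.refl r))) μ := rfl
    have e2 : F2 (Path.Homotopic.Quotient.mk q) = Path.Homotopic.Quotient.map
      (Path.Homotopic.Quotient.mk ((Path.refl r).prod q)) μ := rfl
    have h1 : ((p.prod (Path.refl r)).trans ((Path.refl r).prod q)).Homotopic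
        (((Path.refl r).prod q).trans (p.prod (Path.refl r))) := by
      rw [Path.trans_prod_eq_prod_trans, Path.trans_prod_eq_prod_trans]
      exact ⟨Path.Homotopic.prodHomotopy
        ((Path.Homotopy.transRefl p).trans (Path.Homotopy.reflTrans p).symm)
        ((Path.Homotopy.reflTrans q).trans (Path.Homotopy.transRefl q).symm)⟩
    have h2 := h1.map μ
    rw [Path.map_trans, Path.map_trans] at h2
    rw [e1, e2]
    exact Path.Homotopic.Quotient.eq.2 h2

/-! ### Pushing the simplex to the boundary -/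

section geom

variable {m : ℕ}

/-- the standard simplex of dimension `m` -/
abbrev D (m : ℕ) := stdSimplex ℝ (Fin (m + 1))

theorem exists_pt (hm : 1 ≤ m) (α : ℝ) (h0 : 0 < α) (h1 : α < 1) :
    ∃ p : D m, p 0 = α ∧ ∀ i, 0 < p i := by
  have hm' : (0 : ℝ) < m := by exact_mod_cast hm
  refine ⟨⟨fun i => if i = 0 then α else (1 - α) / m, fun i => ?_, ?_⟩, ?_, fun i => ?_⟩
  · change 0 ≤ (if i = 0 then α else (1 - α) / m)
    split_ifs
    · exact h0.le
    · exact div_nonneg (by linarith) hm'.le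
  · rw [Fin.sum_univ_succ]
    simp only [if_true, Fin.succ_ne_zero, if_false, Finset.sum_const, Finset.card_univ,
      Fintype.card_fin, nsmul_eq_mul]
    field_simp
    ring
  · change (if (0 : Fin (m + 1)) = 0 then α else (1 - α) / m) = α
    simp
  · change 0 < (if i = 0 then α else (1 - α) / m)
    split_ifs
    · exact h0
    · exact div_pos (by linarith) hm'

/-- `min (c, min_i x_i / p_i)` -/
noncomputable def kap (p : D m) (c : ℝ) (x : D m) : ℝ :=
  min c (Finset.univ.inf' ⟨0, Finset.mem_univ _⟩ fun i => x i / p i)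

theorem cont_coord (i : Fin (m + 1)) : Continuous fun x : D m => x i :=
  (continuous_apply i).comp continuous_subtype_val

theorem cont_kap (p : D m) (c : ℝ) : Continuous (kap p c) := by
  refine continuous_const.min (Continuous.finset_inf'_apply _ fun i _ => ?_)
  exact (cont_coord i).div_const _

variable {p : D m} {c : ℝ} (hp : ∀ i, 0 < p i) (hc : 0 ≤ c) (hc1 : c < 1)

theorem kap_le (x : D m) : kap p c x ≤ c := min_le_left _ _

include hp

theorem kap_mul_le (x : D m) (i : Fin (m + 1)) : kap p c x * p i ≤ x i := by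
  have h : kap p c x ≤ x i / p i :=
    (min_le_right _ _).trans (Finset.inf'_le _ (Finset.mem_univ i))
  rwa [le_div_iff₀ (hp i)] at h

include hc

theorem kap_nonneg (x : D m) : 0 ≤ kap p c x :=
  le_min hc (Finset.le_inf' _ _ fun i _ => div_nonneg (by simp) (hp i).le)

theorem kap_eq_zero (x : D m) (i : Fin (m + 1)) (hx : x i = 0) : kap p c x = 0 := by
  refine le_antisymm ?_ (kap_nonneg hp hc x)
  have := kap_mul_le (c := c) hp x i
  rw [hx] at this
  have hi := hp i
  nlinarith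

include hc1

/-- the push -/
theorem exists_push : ∃ f : C(D m, D m), (∀ x ∈ bdry (m + 1), f x = x) ∧
    ∀ x, (∃ i, x i ≤ c * p i) → f x ∈ bdry (m + 1) := by
  have hk : ∀ x, 0 < 1 - kap p c x := fun x => by
    have := kap_le (p := p) (c := c) x
    linarith
  refine ⟨⟨fun x => ⟨fun i => (x i - kap p c x * p i) / (1 - kap p c x), fun i => ?_, ?_⟩, ?_⟩,
    ?_, ?_⟩
  · exact div_nonneg (sub_nonneg.2 (kap_mul_le hp x i)) (hk x).le
  · rw [← Finset.sum_div, Finset.sum_sub_distrib, ← Finset.mul_sum, stdSimplex.sum_eq_one,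
      stdSimplex.sum_eq_one, mul_one, div_self (hk x).ne']
  · refine Continuous.subtype_mk (continuous_pi fun i => ?_) _
    exact ((cont_coord i).sub ((cont_kap p c).mul_const _)).div
      (continuous_const.sub (cont_kap p c)) fun x => (hk x).ne'
  · rintro x ⟨i, hi⟩
    have h0 := kap_eq_zero hp hc x i hi
    refine stdSimplex.ext (funext fun j => ?_)
    change (x j - kap p c x * p j) / (1 - kap p c x) = x j
    rw [h0]; simp
  · rintro x ⟨i, hi⟩
    obtain ⟨j, -, hj⟩ := Finset.exists_mem_eq_inf' (s := (Finset.univ : Finset (Fin (m + 1))))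
      ⟨0, Finset.mem_univ _⟩ (fun i => x i / p i)
    refine ⟨j, ?_⟩
    change (x j - kap p c x * p j) / (1 - kap p c x) = 0
    have h1 : kap p c x = x j / p j := by
      unfold kap
      rw [hj, min_eq_right]
      rw [← hj]
      refine (Finset.inf'_le _ (Finset.mem_univ i)).trans ?_
      rwa [div_le_iff₀ (hp i)]
    rw [h1, div_mul_cancel₀ _ (hp j).ne']
    simp

end geom

/-- the two pushes -/
theorem exists_LR {m : ℕ} (hm : 1 ≤ m) : ∃ f g : C(D m, D m),
    (∀ x ∈ bdry (m + 1), f x = x) ∧ (∀ x ∈ bdry (m + 1), g x = x) ∧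
    (∀ x : D m, 1 / 3 ≤ x 0 → f x ∈ bdry (m + 1)) ∧
    (∀ x : D m, x 0 ≤ 2 / 3 → g x ∈ bdry (m + 1)) := by
  obtain ⟨p, hp0, hp⟩ := exists_pt hm (1 / 6) (by norm_num) (by norm_num)
  obtain ⟨q, hq0, hq⟩ := exists_pt hm (5 / 6) (by norm_num) (by norm_num)
  obtain ⟨f, hf1, hf2⟩ := exists_push (c := 9 / 10) hp (by norm_num) (by norm_num)
  obtain ⟨g, hg1, hg2⟩ := exists_push (c := 9 / 10) hq (by norm_num) (by norm_num)
  refine ⟨f, g, hf1, hg1, fun x hx => hf2 x ?_, fun x hx => hg2 x ⟨0, by rw [hq0]; linarith⟩⟩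
  by_contra hcon
  push Not at hcon
  have h1 := stdSimplex.sum_eq_one x
  have h2 := stdSimplex.sum_eq_one p
  rw [Fin.sum_univ_succ] at h1 h2
  have h3 : 9 / 10 * ∑ i : Fin m, p i.succ ≤ ∑ i : Fin m, x i.succ := by
    rw [Finset.mul_sum]
    exact Finset.sum_le_sum fun i _ => (hcon _).le
  linarith

/-! ### The multiplication -/

section glue

variable {m : ℕ} {M : Type} [TopologicalSpace M] {ρ : Simp (m + 1) M}

/-- straight line between two points of the simplex -/
noncomputable def mix (s : I) (x y : D m) : D m :=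
  ⟨fun i => (1 - (s : ℝ)) * x i + s * y i, fun i => add_nonneg
    (mul_nonneg (sub_nonneg.2 s.2.2) (by simp)) (mul_nonneg s.2.1 (by simp)), by
    rw [Finset.sum_add_distrib, ← Finset.mul_sum, ← Finset.mul_sum]
    simp⟩

theorem mix_zero (x y : D m) : mix 0 x y = x :=
  stdSimplex.ext (funext fun i => by
    change (1 - ((0 : I) : ℝ)) * x i + ((0 : I) : ℝ) * y i = x i
    simp)

theorem mix_one (x y : D m) : mix 1 x y = y :=
  stdSimplex.ext (funext fun i => by
    change (1 - ((1 : I) : ℝ)) * x i + ((1 : I) : ℝ) * y i = y i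
    simp)

theorem mix_self (s : I) (x : D m) : mix s x x = x :=
  stdSimplex.ext (funext fun i => by
    change (1 - (s : ℝ)) * x i + s * x i = x i
    ring)

theorem cont_mix : Continuous fun p : I × D m × D m => mix p.1 p.2.1 p.2.2 := by
  refine Continuous.subtype_mk (continuous_pi fun i => ?_) _
  have h1 : Continuous fun p : I × D m × D m => p.2.1 i :=
    (cont_coord i).comp (continuous_fst.comp continuous_snd)
  have h2 : Continuous fun p : I × D m × D m => p.2.2 i :=
    (cont_coord i).comp (continuous_snd.comp continuous_snd)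
  have h3 : Continuous fun p : I × D m × D m => (p.1 : ℝ) :=
    continuous_subtype_val.comp continuous_fst
  exact ((continuous_const.sub h3).mul h1).add (h3.mul h2)

/-- maps into `YY ρ` -/
def mkY {T : Type} [TopologicalSpace T] (F : C(T × D m, M))
    (hF : ∀ t, ∀ x ∈ bdry (m + 1), F (t, x) = ρ x) : C(T, YY ρ) :=
  ⟨fun t => ⟨F.curry t, fun x hx => hF t x hx⟩, F.curry.continuous.subtype_mk _⟩

theorem mkY_apply {T : Type} [TopologicalSpace T] (F : C(T × D m, M))
    (hF : ∀ t, ∀ x ∈ bdry (m + 1), F (t, x) = ρ x) (t : T) (x : D m) :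
    (mkY F hF t).1 x = F (t, x) := rfl

/-- the transition function -/
noncomputable def ww (x : D m) : I := Set.projIcc 0 1 zero_le_one (3 * x 0 - 1)

theorem cont_ww : Continuous (ww (m := m)) :=
  continuous_projIcc.comp ((continuous_const.mul (cont_coord 0)).sub continuous_const)

theorem ww_zero (x : D m) (hx : x 0 ≤ 1 / 3) : ww x = 0 :=
  Set.projIcc_of_le_left _ (by linarith)

theorem ww_one (x : D m) (hx : 2 / 3 ≤ x 0) : ww x = 1 :=
  Set.projIcc_of_right_le _ (by linarith)

theorem cont_ev {T : Type} [TopologicalSpace T] (a : T → YY ρ) (b : T → D m) (ha : Continuous a)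
    (hb : Continuous b) : Continuous fun t => (a t).1 (b t) :=
  (continuous_subtype_val.comp ha).eval hb

variable {f g : C(D m, D m)} (hf : ∀ x ∈ bdry (m + 1), f x = x)
  (hg : ∀ x ∈ bdry (m + 1), g x = x) (hf' : ∀ x : D m, 1 / 3 ≤ x 0 → f x ∈ bdry (m + 1))
  (hg' : ∀ x : D m, x 0 ≤ 2 / 3 → g x ∈ bdry (m + 1))

theorem cont_x0 {T : Type} [TopologicalSpace T] : Continuous fun p : T × D m => p.2 0 :=
  (cont_coord 0).comp continuous_snd

theorem cont_mid {T : Type} [TopologicalSpace T] (u : T × D m → I) (hu : Continuous u) :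
    Continuous fun p : T × D m => ρ (mix (u p) (f p.2) (g p.2)) :=
  ρ.continuous.comp (cont_mix.comp (hu.prodMk ((f.continuous.comp continuous_snd).prodMk
    (g.continuous.comp continuous_snd))))

include hf hg hf' hg' in
theorem exists_mul : ∃ μ : C(YY ρ × YY ρ, YY ρ), ∀ y z x, (μ (y, z)).1 x =
    if x 0 ≤ 1 / 3 then y.1 (f x) else if x 0 ≤ 2 / 3 then ρ (mix (ww x) (f x) (g x))
    else z.1 (g x) := by
  have hF : Continuous fun p : (YY ρ × YY ρ) × D m =>
      if p.2 0 ≤ 1 / 3 then p.1.1.1 (f p.2) else if p.2 0 ≤ 2 / 3 then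
        ρ (mix (ww p.2) (f p.2) (g p.2)) else p.1.2.1 (g p.2) := by
    refine Continuous.if_le (cont_ev _ _ (continuous_fst.comp continuous_fst)
      (f.continuous.comp continuous_snd)) (Continuous.if_le
        (cont_mid _ (cont_ww.comp continuous_snd)) (cont_ev _ _
          (continuous_snd.comp continuous_fst) (g.continuous.comp continuous_snd))
        cont_x0 continuous_const ?_) cont_x0 continuous_const ?_
    · rintro ⟨⟨y, z⟩, x⟩ hx
      simp only at hx ⊢
      rw [ww_one x hx.ge, mix_one, z.2 _ (hg' x hx.le)]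
    · rintro ⟨⟨y, z⟩, x⟩ hx
      simp only at hx ⊢
      rw [if_pos (by rw [hx]; norm_num), ww_zero x hx.le, mix_zero, y.2 _ (hf' x hx.ge)]
  refine ⟨mkY ⟨_, hF⟩ ?_, fun y z x => rfl⟩
  rintro ⟨y, z⟩ x hx
  change (if x 0 ≤ 1 / 3 then y.1 (f x) else if x 0 ≤ 2 / 3 then ρ (mix (ww x) (f x) (g x))
    else z.1 (g x)) = ρ x
  rw [hf x hx, hg x hx, mix_self, y.2 x hx, z.2 x hx]
  simp

include hf hg hf' in
theorem homL (μ : C(YY ρ × YY ρ, YY ρ)) (hμ : ∀ y z x, (μ (y, z)).1 x =
    if x 0 ≤ 1 / 3 then y.1 (f x) else if x 0 ≤ 2 / 3 then ρ (mix (ww x) (f x) (g x))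
    else z.1 (g x)) : (ContinuousMap.id (YY ρ)).Homotopic
      ⟨fun y => μ (y, YY.base ρ), by fun_prop⟩ := by
  -- first homotopy
  have h1 : Continuous fun p : (I × YY ρ) × D m => p.1.2.1 (mix p.1.1 p.2 (f p.2)) :=
    cont_ev _ _ (continuous_snd.comp continuous_fst) (cont_mix.comp
      ((continuous_fst.comp continuous_fst).prodMk (continuous_snd.prodMk
        (f.continuous.comp continuous_snd))))
  have h2 : Continuous fun p : (I × YY ρ) × D m => if p.2 0 ≤ 1 / 3 then p.1.2.1 (f p.2) else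
      ρ (mix (p.1.1 * ww p.2) (f p.2) (g p.2)) := by
    refine Continuous.if_le (cont_ev _ _ (continuous_snd.comp continuous_fst)
      (f.continuous.comp continuous_snd)) (cont_mid _ (Continuous.mul
        (continuous_fst.comp continuous_fst) (cont_ww.comp continuous_snd)))
      cont_x0 continuous_const ?_
    rintro ⟨⟨s, y⟩, x⟩ hx
    simp only at hx ⊢
    rw [ww_zero x hx.le, mul_zero, mix_zero, y.2 _ (hf' x hx.ge)]
  have b1 : ∀ t : I × YY ρ, ∀ x ∈ bdry (m + 1), t.2.1 (mix t.1 x (f x)) = ρ x := by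
    rintro ⟨s, y⟩ x hx
    simp only
    rw [hf x hx, mix_self, y.2 x hx]
  have b2 : ∀ t : I × YY ρ, ∀ x ∈ bdry (m + 1), (if x 0 ≤ 1 / 3 then t.2.1 (f x) else
      ρ (mix (t.1 * ww x) (f x) (g x))) = ρ x := by
    rintro ⟨s, y⟩ x hx
    simp only
    rw [hf x hx, hg x hx, mix_self, y.2 x hx]
    simp
  let q1 : C(I × YY ρ, YY ρ) := mkY ⟨_, h1⟩ b1
  let q2 : C(I × YY ρ, YY ρ) := mkY ⟨_, h2⟩ b2
  let φ : C(YY ρ, YY ρ) := ⟨fun y => q1 (1, y), by fun_prop⟩
  have H1 : (ContinuousMap.id (YY ρ)).Homotopic φ := by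
    refine ⟨⟨q1, fun y => Subtype.ext (ContinuousMap.ext fun x => ?_), fun y => rfl⟩⟩
    change y.1 (mix 0 x (f x)) = y.1 x
    rw [mix_zero]
  have H2 : φ.Homotopic ⟨fun y => μ (y, YY.base ρ), by fun_prop⟩ := by
    refine ⟨⟨q2, fun y => Subtype.ext (ContinuousMap.ext fun x => ?_),
      fun y => Subtype.ext (ContinuousMap.ext fun x => ?_)⟩⟩
    · change (if x 0 ≤ 1 / 3 then y.1 (f x) else
        ρ (mix (0 * ww x) (f x) (g x))) = y.1 (mix 1 x (f x))
      rw [zero_mul, mix_one, mix_zero]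
      split_ifs with h
      · rfl
      · exact (y.2 _ (hf' x (not_le.1 h).le)).symm
    · change (if x 0 ≤ 1 / 3 then y.1 (f x) else
        ρ (mix (1 * ww x) (f x) (g x))) = (μ (y, YY.base ρ)).1 x
      rw [hμ, one_mul]
      split_ifs with h h'
      · rfl
      · rfl
      · rw [ww_one x (not_le.1 h').le, mix_one]
  exact H1.trans H2

include hf hg hg' in
theorem homR (μ : C(YY ρ × YY ρ, YY ρ)) (hμ : ∀ y z x, (μ (y, z)).1 x =
    if x 0 ≤ 1 / 3 then y.1 (f x) else if x 0 ≤ 2 / 3 then ρ (mix (ww x) (f x) (g x))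
    else z.1 (g x)) : (ContinuousMap.id (YY ρ)).Homotopic
      ⟨fun y => μ (YY.base ρ, y), by fun_prop⟩ := by
  -- first homotopy
  have h1 : Continuous fun p : (I × YY ρ) × D m => p.1.2.1 (mix p.1.1 p.2 (g p.2)) :=
    cont_ev _ _ (continuous_snd.comp continuous_fst) (cont_mix.comp
      ((continuous_fst.comp continuous_fst).prodMk (continuous_snd.prodMk
        (g.continuous.comp continuous_snd))))
  have h2 : Continuous fun p : (I × YY ρ) × D m => if p.2 0 ≤ 2 / 3 then
      ρ (mix (unitInterval.symm (p.1.1 * unitInterval.symm (ww p.2))) (f p.2) (g p.2)) else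
      p.1.2.1 (g p.2) := by
    refine Continuous.if_le (cont_mid _ (unitInterval.continuous_symm.comp (Continuous.mul
        (continuous_fst.comp continuous_fst) (unitInterval.continuous_symm.comp
          (cont_ww.comp continuous_snd)))))
      (cont_ev _ _ (continuous_snd.comp continuous_fst) (g.continuous.comp continuous_snd))
      cont_x0 continuous_const ?_
    rintro ⟨⟨s, y⟩, x⟩ hx
    simp only at hx ⊢
    rw [ww_one x hx.ge, unitInterval.symm_one, mul_zero, unitInterval.symm_zero, mix_one,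
      y.2 _ (hg' x hx.le)]
  have b1 : ∀ t : I × YY ρ, ∀ x ∈ bdry (m + 1), t.2.1 (mix t.1 x (g x)) = ρ x := by
    rintro ⟨s, y⟩ x hx
    simp only
    rw [hg x hx, mix_self, y.2 x hx]
  have b2 : ∀ t : I × YY ρ, ∀ x ∈ bdry (m + 1), (if x 0 ≤ 2 / 3 then
      ρ (mix (unitInterval.symm (t.1 * unitInterval.symm (ww x))) (f x) (g x)) else
      t.2.1 (g x)) = ρ x := by
    rintro ⟨s, y⟩ x hx
    simp only
    rw [hf x hx, hg x hx, mix_self, y.2 x hx]
    simp
  let q1 : C(I × YY ρ, YY ρ) := mkY ⟨_, h1⟩ b1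
  let q2 : C(I × YY ρ, YY ρ) := mkY ⟨_, h2⟩ b2
  let φ : C(YY ρ, YY ρ) := ⟨fun y => q1 (1, y), by fun_prop⟩
  have H1 : (ContinuousMap.id (YY ρ)).Homotopic φ := by
    refine ⟨⟨q1, fun y => Subtype.ext (ContinuousMap.ext fun x => ?_), fun y => rfl⟩⟩
    change y.1 (mix 0 x (g x)) = y.1 x
    rw [mix_zero]
  have H2 : φ.Homotopic ⟨fun y => μ (YY.base ρ, y), by fun_prop⟩ := by
    refine ⟨⟨q2, fun y => Subtype.ext (ContinuousMap.ext fun x => ?_),
      fun y => Subtype.ext (ContinuousMap.ext fun x => ?_)⟩⟩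
    · change (if x 0 ≤ 2 / 3 then
        ρ (mix (unitInterval.symm (0 * unitInterval.symm (ww x))) (f x) (g x)) else
        y.1 (g x)) = y.1 (mix 1 x (g x))
      rw [zero_mul, unitInterval.symm_zero, mix_one, mix_one]
      split_ifs with h
      · exact (y.2 _ (hg' x h)).symm
      · rfl
    · change (if x 0 ≤ 2 / 3 then
        ρ (mix (unitInterval.symm (1 * unitInterval.symm (ww x))) (f x) (g x)) else
        y.1 (g x)) = (μ (YY.base ρ, y)).1 x
      rw [hμ, one_mul, unitInterval.symm_symm]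
      split_ifs with h h' h'
      · rw [ww_zero x h', mix_zero]
      · rfl
      · linarith
      · rfl
  exact H1.trans H2

end glue

theorem main : SpecComm := by
  intro M _ m hm ρ p q
  obtain ⟨f, g, hf, hg, hf', hg'⟩ := exists_LR hm
  obtain ⟨μ, hμ⟩ := exists_mul (ρ := ρ) hf hg hf' hg'
  exact comm_of_mul μ (YY.base ρ) _ _ rfl rfl (homL hf hg hf' μ hμ) (homR hf hg hg' μ hμ) p q

end Vale.Agent.P223.MT.C
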