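import Vale.Agent.P223.H.Defs
import Mathlib.Topology.Homotopy.Path
import Mathlib.AlgebraicTopology.FundamentalGroupoid.SimplyConnected

/-! Mapping theorem for bounded cohomology (topological part of the theorem for all closed
manifolds): definitions and blocks. All spaces are arbitrary topological spaces. -/

namespace Vale.Agent.P223.MT

open H (Simp Chain face bd l1)
/-- The unit interval. -/
abbrev I := unitInterval

/-- Boundary of the standard simplex with `k` vertices. -/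
def bdry (k : ℕ) : Set (stdSimplex ℝ (Fin k)) := {x | ∃ i, x i = 0}

/-- Homotopies of singular simplices with `k` vertices. -/
abbrev Hom (k : ℕ) (M : Type) [TopologicalSpace M] := C(I × stdSimplex ℝ (Fin k), M)

section
variable {M : Type} [TopologicalSpace M] {k n : ℕ}

/-- The simplex at time `t`. -/
def Hom.at (K : Hom k M) (t : I) : Simp k M := ⟨fun x => K (t, x), by fun_prop⟩

/-- Restriction of a homotopy to the face `i`. -/
noncomputable def Hom.fc (K : Hom (k + 1) M) (i : Fin (k + 1)) : Hom k M :=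
  ⟨fun p => K (p.1, face k i p.2), by fun_prop⟩

/-- Homotopic relative to the boundary. -/
def HomRel (σ σ' : Simp k M) : Prop := ContinuousMap.HomotopicRel σ σ' (bdry k)

/-- Homotopies which are homotopic relative to the boundary of `I × Δ`. -/
def HomRel2 (L L' : Hom k M) : Prop :=
  ContinuousMap.HomotopicRel L L' {p | p.2 ∈ bdry k ∨ p.1 = 0 ∨ p.1 = 1}

/-- The vertices. -/
noncomputable def vert (σ : Simp k M) (i : Fin k) : M := σ (stdSimplex.vertex i)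

/-- The map of standard simplices given by an embedding of the vertices. -/
noncomputable def sub {j : ℕ} (f : Fin j ↪o Fin k) :
    C(stdSimplex ℝ (Fin j), stdSimplex ℝ (Fin k)) :=
  ⟨stdSimplex.map f, stdSimplex.continuous_map _⟩

/-- The restrictions to all faces of dimension `j` are homotopic relative to the boundary. -/
def Rel (j : ℕ) (σ σ' : Simp k M) : Prop :=
  ∀ f : Fin (j + 1) ↪o Fin k, HomRel (σ.comp (sub f)) (σ'.comp (sub f))

/-- Cocycles (as functions on simplices). -/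
def IsCoc (c : Simp (n + 1) M → ℝ) : Prop :=
  ∀ τ : Simp (n + 2) M, ∑ i : Fin (n + 2), (-1 : ℝ) ^ (i : ℕ) * c (τ.comp (face (n + 1) i)) = 0

/-- Coboundary of a function on simplices. -/
noncomputable def Cob (b : Simp n M → ℝ) (σ : Simp (n + 1) M) : ℝ :=
  ∑ i : Fin (n + 1), (-1 : ℝ) ^ (i : ℕ) * b (σ.comp (face n i))

end

/-- BLOCK P (prism operator). -/
def SpecPrism : Prop := ∀ (M : Type) [TopologicalSpace M] (n : ℕ) (c : Simp (n + 1) M → ℝ),
  IsCoc c → (∀ σ, |c σ| ≤ 1) → ∃ B : Hom n M → ℝ, (∀ L, |B L| ≤ n) ∧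
    ∀ K : Hom (n + 1) M, c (K.at 1) - c (K.at 0) =
      ∑ i : Fin (n + 1), (-1 : ℝ) ^ (i : ℕ) * B (K.fc i)

/-- BLOCK E (homotopy extension, with prescribed compatible homotopies of the faces). -/
def SpecExt : Prop := ∀ (M : Type) [TopologicalSpace M] (k : ℕ) (σ : Simp (k + 1) M)
  (G : Fin (k + 1) → Hom k M), (∀ i x, G i (0, x) = σ (face k i x)) →
  (∀ i j t x y, face k i x = face k j y → G i (t, x) = G j (t, y)) →
  ∃ K : Hom (k + 1) M, K.at 0 = σ ∧ ∀ i, K.fc i = G i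

/-- A compatible choice of homotopies of all singular simplices. -/
structure Sys (M : Type) [TopologicalSpace M] where
  H : (k : ℕ) → Simp k M → Hom k M
  zero : ∀ k (σ : Simp k M), (H k σ).at 0 = σ
  fc : ∀ k (σ : Simp (k + 1) M) (i : Fin (k + 1)), (H (k + 1) σ).fc i = H k (σ.comp (face k i))

/-- BLOCK S (systems of homotopies). -/
def SpecSys : Prop := ∀ (M : Type) [TopologicalSpace M] (m : ℕ)
  (w : Simp (m + 1) M → Hom (m + 1) M), (∀ ρ, (w ρ).at 0 = ρ) →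
  (∀ ρ t, ∀ x ∈ bdry (m + 1), w ρ (t, x) = ρ x) →
  ∃ S : Sys M, (∀ k ≤ m, ∀ (σ : Simp k M) t x, S.H k σ (t, x) = σ x) ∧
    ∀ ρ, S.H (m + 1) ρ = w ρ

/-- BLOCK W (the end of a homotopy is determined by the beginning and by the faces). -/
def SpecWd : Prop := ∀ (M : Type) [TopologicalSpace M] (k : ℕ) (K K' : Hom (k + 1) M),
  HomRel (K.at 0) (K'.at 0) → (∀ i, HomRel2 (K.fc i) (K'.fc i)) → HomRel (K.at 1) (K'.at 1)

/-- BLOCK Hn1 (two simplices which agree on the horn at the vertex `0`). -/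
def SpecHorn1 : Prop := ∀ (M : Type) [TopologicalSpace M] (k : ℕ) (υ υ' : Simp (k + 2) M),
  (∀ x : stdSimplex ℝ (Fin (k + 2)), (∃ i, i ≠ 0 ∧ x i = 0) → υ x = υ' x) →
  ContinuousMap.HomotopicRel υ υ' {x | ∃ i, i ≠ 0 ∧ x i = 0}

/-- BLOCK Hn2 (the last face of a horn filler is unique; from Hn1 and E). -/
def SpecHorn2 : Prop := ∀ (M : Type) [TopologicalSpace M] (k : ℕ) (ξ ξ' : Simp (k + 2) M),
  (∀ i : Fin (k + 2), i ≠ 0 → HomRel (ξ.comp (face (k + 1) i)) (ξ'.comp (face (k + 1) i))) →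
  HomRel (ξ.comp (face (k + 1) 0)) (ξ'.comp (face (k + 1) 0))

/-- The space of simplices with the same boundary as `ρ`. -/
abbrev YY {M : Type} [TopologicalSpace M] {k : ℕ} (ρ : Simp k M) :=
  {y : Simp k M // ∀ x ∈ bdry k, y x = ρ x}

/-- The base point of `YY ρ`. -/
abbrev YY.base {M : Type} [TopologicalSpace M] {k : ℕ} (ρ : Simp k M) : YY ρ :=
  ⟨ρ, fun _ _ => rfl⟩

/-- BLOCK C (self homotopies relative to the boundary commute, Eckmann-Hilton). -/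
def SpecComm : Prop := ∀ (M : Type) [TopologicalSpace M] (m : ℕ), 1 ≤ m →
  ∀ (ρ : Simp (m + 1) M) (p q : Path (YY.base ρ) (YY.base ρ)),
  (p.trans q).Homotopic (q.trans p)

/-- Bounded functions. -/
def Bdd {A : Type} (f : A → ℝ) : Prop := ∃ C : ℝ, ∀ a, |f a| ≤ C

/-- Invariant means. -/
structure Mean (A : Type) [CommGroup A] where
  μ : (A → ℝ) → ℝ
  add : ∀ f g, Bdd f → Bdd g → μ (fun a => f a + g a) = μ f + μ g
  smul : ∀ (r : ℝ) f, Bdd f → μ (fun a => r * f a) = r * μ f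
  const : ∀ r : ℝ, μ (fun _ => r) = r
  bound : ∀ (f : A → ℝ) (C : ℝ), (∀ a, |f a| ≤ C) → |μ f| ≤ C
  inv : ∀ (f : A → ℝ) (b : A), Bdd f → μ (fun a => f (b * a)) = μ f

/-- BLOCK Mn (amenability of abelian groups). -/
def SpecMean : Prop := ∀ (A : Type) [CommGroup A], Nonempty (Mean A)

/-- BLOCK D (duality, Hahn-Banach). -/
def SpecDual : Prop := ∀ (M : Type) [TopologicalSpace M] (n : ℕ) (z : Chain (n + 1) M) (B : ℝ),
  (∀ c : Chain (n + 1) M →ₗ[ℝ] ℝ, (∀ σ, |c (Finsupp.single σ 1)| ≤ 1) →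
    (∀ w, c (bd (n + 1) w) = 0) → |c z| ≤ B) →
  ∀ δ : ℝ, 0 < δ → ∃ w : Chain (n + 2) M, l1 (z + bd (n + 1) w) ≤ B + δ

/-- BLOCK St (one step). -/
def SpecStep : Prop := ∀ (M : Type) [TopologicalSpace M] (n m : ℕ) (c : Simp (n + 1) M → ℝ),
  1 ≤ m → m + 1 ≤ n → IsCoc c → (∀ σ, |c σ| ≤ 1) →
  (∀ σ σ' : Simp (n + 1) M, Function.Injective (vert σ) → Rel (m + 1) σ σ' → c σ = c σ') →
  ∃ (c' : Simp (n + 1) M → ℝ) (b : Simp n M → ℝ), (∀ σ, |c' σ| ≤ 1) ∧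
    (∀ σ, c' σ = c σ + Cob b σ) ∧
    ∀ σ σ' : Simp (n + 1) M, Function.Injective (vert σ) → Rel m σ σ' → c' σ = c' σ'

/-- BLOCK A (all steps). -/
def SpecA : Prop := ∀ (M : Type) [TopologicalSpace M] (n : ℕ) (c : Simp (n + 1) M → ℝ), 1 ≤ n →
  IsCoc c → (∀ σ, |c σ| ≤ 1) →
  ∃ (c' : Simp (n + 1) M → ℝ) (b : Simp n M → ℝ), (∀ σ, |c' σ| ≤ 1) ∧
    (∀ σ, c' σ = c σ + Cob b σ) ∧
    ∀ σ σ' : Simp (n + 1) M, Function.Injective (vert σ) → Rel 1 σ σ' → c' σ = c' σ'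

/-- BLOCK Vx (simplices with given vertices). -/
def SpecVert : Prop := ∀ (X : Type) [TopologicalSpace X] [PathConnectedSpace X] (k : ℕ)
  (x : Fin (k + 1) → X), ∃ σ : Simp (k + 1) X, ∀ i, vert σ i = x i

/-- BLOCK V (functions of the vertices, from A and Vx). -/
def SpecB : Prop := ∀ (M X Γ : Type) [TopologicalSpace M] [TopologicalSpace X]
  [SimplyConnectedSpace X] [Group Γ] [MulAction Γ X] [ContinuousConstSMul Γ X] (π : C(X, M)),
  (∀ x y, π x = π y ↔ ∃ γ : Γ, γ • x = y) →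
  ∀ (n : ℕ) (c : Simp (n + 1) M → ℝ), 1 ≤ n → IsCoc c → (∀ σ, |c σ| ≤ 1) →
  ∃ (f : (Fin (n + 1) → X) → ℝ) (b : Simp n M → ℝ), (∀ x, |f x| ≤ 1) ∧
    (∀ (γ : Γ) x, f (fun i => γ • x i) = f x) ∧
    (∀ σ : Simp (n + 1) X, (Function.Injective fun i => π (vert σ i)) →
      f (vert σ) = c (π.comp σ) + Cob b (π.comp σ)) ∧
    ∀ x : Fin (n + 2) → X, (Function.Injective fun i => π (x i)) →
      ∑ i : Fin (n + 2), (-1 : ℝ) ^ (i : ℕ) * f (x ∘ i.succAbove) = 0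

/-- The points `x i` are in different orbits. -/
def Dist (Γ : Type) {X ι : Type} [Group Γ] [MulAction Γ X] (x : ι → X) : Prop :=
  ∀ i j, (∃ γ : Γ, γ • x i = x j) → i = j

/-- BLOCK U (ultralimits; `f` need only be a cocycle on points in different orbits). -/
def SpecC : Prop := ∀ (X Γ : Type) [Group Γ] [MulAction Γ X] (n : ℕ)
  (f : (Fin (n + 1) → X) → ℝ), (∃ s : ℕ → X, Dist Γ s) → (∀ x, |f x| ≤ 1) →
  (∀ (γ : Γ) x, f (fun i => γ • x i) = f x) →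
  (∀ x : Fin (n + 2) → X, Dist Γ x →
      ∑ i : Fin (n + 2), (-1 : ℝ) ^ (i : ℕ) * f (x ∘ i.succAbove) = 0) →
  ∃ F : (Fin (n + 1) → Γ) → ℝ, (∀ g, |F g| ≤ 1) ∧ (∀ (γ : Γ) g, F (fun i => γ * g i) = F g) ∧
    (∀ g : Fin (n + 2) → Γ, ∑ i : Fin (n + 2), (-1 : ℝ) ^ (i : ℕ) * F (g ∘ i.succAbove) = 0) ∧
    ∀ (ι : Type) (q : ι → X), Dist Γ q → ∃ β : (Fin n → Γ × ι) → ℝ,
      (∀ (γ : Γ) l, β (fun i => (γ * (l i).1, (l i).2)) = β l) ∧
      ∀ l : Fin (n + 1) → Γ × ι, (Function.Injective fun i => (l i).2) →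
        F (fun i => (l i).1) - f (fun i => (l i).1 • q (l i).2) =
          ∑ i : Fin (n + 1), (-1 : ℝ) ^ (i : ℕ) * β (l ∘ i.succAbove)

/-- OUTPUT. -/
def SpecMT : Prop := ∀ (M X Γ : Type) [TopologicalSpace M] [TopologicalSpace X]
  [SimplyConnectedSpace X] [Group Γ] [MulAction Γ X] [ContinuousConstSMul Γ X] (π : C(X, M)),
  (∀ x y, π x = π y ↔ ∃ γ : Γ, γ • x = y) → (∃ s : ℕ → X, Dist Γ s) →
  ∀ (n : ℕ) (c : Chain (n + 1) M →ₗ[ℝ] ℝ), 1 ≤ n → (∀ σ, |c (Finsupp.single σ 1)| ≤ 1) →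
  (∀ w, c (bd (n + 1) w) = 0) →
  ∃ F : (Fin (n + 1) → Γ) → ℝ, (∀ g, |F g| ≤ 1) ∧ (∀ (γ : Γ) g, F (fun i => γ * g i) = F g) ∧
    (∀ g : Fin (n + 2) → Γ, ∑ i : Fin (n + 2), (-1 : ℝ) ^ (i : ℕ) * F (g ∘ i.succAbove) = 0) ∧
    ∀ (ι : Type) (q : ι → X), Dist Γ q →
      ∀ (a : (Fin (n + 1) → Γ × ι) →₀ ℝ) (S : (Fin (n + 1) → Γ × ι) → Simp (n + 1) X),
      (∀ l ∈ a.support, Function.Injective fun i => (l i).2) →
      (∀ l ∈ a.support, ∀ i, vert (S l) i = (l i).1 • q (l i).2) →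
      bd n (a.sum fun l r => Finsupp.single (π.comp (S l)) r) = 0 →
      (∀ β : (Fin n → Γ × ι) → ℝ, (∀ (γ : Γ) l, β (fun i => (γ * (l i).1, (l i).2)) = β l) →
        (a.sum fun l r => r * ∑ i : Fin (n + 1), (-1 : ℝ) ^ (i : ℕ) * β (l ∘ i.succAbove)) = 0) →
      c (a.sum fun l r => Finsupp.single (π.comp (S l)) r) =
        a.sum fun l r => r * F fun i => (l i).1

end Vale.Agent.P223.MT
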