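import Vale.Agent.P223.MT.St3

/-! Block St: averaging over the gauge group. -/

namespace Vale.Agent.P223.MT

open H (Simp Chain face bd l1)

variable {M : Type} [TopologicalSpace M] {k j l n m : ℕ}

theorem Bdd.sum {A : Type} {ι : Type} (s : Finset ι) (r : ι → ℝ) (f : ι → A → ℝ)
    (hf : ∀ i, Bdd (f i)) : Bdd fun a => ∑ i ∈ s, r i * f i a := by
  choose C hC using hf
  refine ⟨∑ i ∈ s, |r i| * C i, fun a => ?_⟩
  refine (Finset.abs_sum_le_sum_abs _ _).trans (Finset.sum_le_sum fun i _ => ?_)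
  rw [abs_mul]
  exact mul_le_mul_of_nonneg_left (hC i a) (abs_nonneg _)

theorem Mean.sum {A : Type} [CommGroup A] (μ : Mean A) {ι : Type} (s : Finset ι) (r : ι → ℝ)
    (f : ι → A → ℝ) (hf : ∀ i, Bdd (f i)) :
    μ.μ (fun a => ∑ i ∈ s, r i * f i a) = ∑ i ∈ s, r i * μ.μ (f i) := by
  classical
  induction s using Finset.induction_on with
  | empty => simpa using μ.const 0
  | insert i s hi ih =>
    have h1 : Bdd fun a => r i * f i a := by
      obtain ⟨C, hC⟩ := hf i
      exact ⟨|r i| * C, fun a => by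
        rw [abs_mul]; exact mul_le_mul_of_nonneg_left (hC a) (abs_nonneg _)⟩
    rw [Finset.sum_insert hi, ← ih, ← μ.smul _ _ (hf i), ← μ.add _ _ h1 (Bdd.sum s r f hf)]
    congr 1
    funext a
    rw [Finset.sum_insert hi]

/-- the fundamental groups are commutative -/
@[instance_reducible] noncomputable def commG (hC : SpecComm) (hm : 1 ≤ m) (q : Cls M (m + 1)) :
    CommGroup (FundamentalGroup (YY (rep q)) (YY.base (rep q))) :=
  { (inferInstance : Group (FundamentalGroup (YY (rep q)) (YY.base (rep q)))) with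
    mul_comm := fun a b => by
      obtain ⟨u, hu⟩ := Path.Homotopic.Quotient.mk_surjective a
      obtain ⟨v, hv⟩ := Path.Homotopic.Quotient.mk_surjective b
      have e1 : a * b = (Path.Homotopic.Quotient.mk v).trans (Path.Homotopic.Quotient.mk u) := by
        rw [FundamentalGroup.mul_def, hu, hv]
      have e2 : b * a = (Path.Homotopic.Quotient.mk u).trans (Path.Homotopic.Quotient.mk v) := by
        rw [FundamentalGroup.mul_def, hu, hv]
      refine e1.trans (Eq.trans ?_ e2.symm)
      rw [← Path.Homotopic.Quotient.mk_trans, ← Path.Homotopic.Quotient.mk_trans,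
        Path.Homotopic.Quotient.eq]
      exact hC M m hm (rep q) v u }

/-- the gauge group is commutative -/
@[instance_reducible] noncomputable def commGa (M : Type) [TopologicalSpace M] (hC : SpecComm) (hm : 1 ≤ m) :
    CommGroup (Ga M (m + 1)) :=
  letI : ∀ q : Cls M (m + 1), CommGroup (FundamentalGroup (YY (rep q)) (YY.base (rep q))) :=
    fun q => commG hC hm q
  Pi.commGroup

theorem St.main (hP : SpecPrism) (hS : SpecSys) (hW : SpecWd) (hH : SpecHorn1)
    (hH2 : SpecHorn2) (hC : SpecComm) (hM : SpecMean) : SpecStep := by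
  intro M _ n m c hm hmn hc hc1 hci
  let _ : CommGroup (Ga M (m + 1)) := commGa M hC hm
  obtain ⟨μ⟩ := hM (Ga M (m + 1))
  obtain ⟨B, hB, hBK⟩ := hP M n c hc hc1
  choose S hSg using exists_good (M := M) hS m
  have hmul : ∀ (g h : Ga M (m + 1)) q, (g * h) q = g q * h q := fun g h q => rfl
  have hbd : ∀ σ : Simp (n + 1) M, Bdd fun h => c (phi (S h) σ) := fun σ => ⟨1, fun h => hc1 _⟩
  have hbB : ∀ τ : Simp n M, Bdd fun h => B ((S h).H n τ) := fun τ => ⟨n, fun h => hB _⟩
  refine ⟨fun σ => μ.μ fun h => c (phi (S h) σ), fun τ => μ.μ fun h => B ((S h).H n τ),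
    fun σ => μ.bound _ _ fun h => hc1 _, fun σ => ?_, fun σ σ' hσ hr => ?_⟩
  · have h1 : ∀ h : Ga M (m + 1), c (phi (S h) σ) = c σ +
        ∑ i : Fin (n + 1), (-1 : ℝ) ^ (i : ℕ) * B ((S h).H n (σ.comp (face n i))) := by
      intro h
      have h2 := hBK ((S h).H (n + 1) σ)
      rw [(S h).zero] at h2
      have h3 : ∀ i, ((S h).H (n + 1) σ).fc i = (S h).H n (σ.comp (face n i)) :=
        fun i => (S h).fc n σ i
      simp only [h3] at h2
      rw [← h2]
      change _ = c σ + (c (phi (S h) σ) - c σ)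
      ring
    have h4 : (fun h : Ga M (m + 1) => c (phi (S h) σ)) = fun h => c σ +
        ∑ i : Fin (n + 1), (-1 : ℝ) ^ (i : ℕ) * B ((S h).H n (σ.comp (face n i))) := funext h1
    change (μ.μ fun h => c (phi (S h) σ)) = _
    rw [h4, μ.add _ _ ⟨|c σ|, fun _ => le_rfl⟩ (Bdd.sum _ _ _ fun i => hbB _), μ.const,
      μ.sum _ _ _ fun i => hbB _]
    rfl
  · obtain ⟨g, hg⟩ := transitive hW hC hH hH2 hS hm σ σ' hσ hr
    have h1 : ∀ h : Ga M (m + 1), c (phi (S h) σ) = c (phi (S (g * h)) σ') := fun h =>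
      hci _ _ (by rw [phi_vert (hSg h) hm]; exact hσ)
        (hg h (g * h) (S h) (S (g * h)) (hSg h) (hSg (g * h)) (hmul g h))
    change (μ.μ fun h => c (phi (S h) σ)) = μ.μ fun h => c (phi (S h) σ')
    rw [← μ.inv (fun h => c (phi (S h) σ')) g (hbd σ')]
    exact congrArg μ.μ (funext h1)

end Vale.Agent.P223.MT
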