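import Vale.Agent.P223.MT.Basic

/-! Paths in mapping spaces and homotopies. -/

namespace Vale.Agent.P223.MT

open H (Simp Chain face bd l1)

variable {M : Type} [TopologicalSpace M] {k j l n m : ℕ}

/-- the homotopy given by a path in the mapping space -/
def hom {a b : Simp k M} (P : Path a b) : Hom k M :=
  ⟨fun z => P z.1 z.2, (P.continuous.comp continuous_fst).eval continuous_snd⟩

/-- the homotopy given by a path in `YY ρ` -/
def homY {ρ : Simp k M} {a b : YY ρ} (p : Path a b) : Hom k M :=
  ⟨fun z => (p z.1).1 z.2,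
    ((continuous_subtype_val.comp p.continuous).comp continuous_fst).eval continuous_snd⟩

/-- the path given by a homotopy -/
def pth (K : Hom k M) : Path (K.at 0) (K.at 1) where
  toFun t := K.at t
  continuous_toFun := K.curry.continuous
  source' := rfl
  target' := rfl

theorem pth_apply (K : Hom k M) (t : I) (x : stdSimplex ℝ (Fin k)) : pth K t x = K (t, x) := rfl

/-- the path in `YY ρ` given by a homotopy -/
def pthY (ρ : Simp k M) (K : Hom k M) (h : ∀ t, ∀ x ∈ bdry k, K (t, x) = ρ x) :
    Path (⟨K.at 0, h 0⟩ : YY ρ) ⟨K.at 1, h 1⟩ where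
  toFun t := ⟨K.at t, h t⟩
  continuous_toFun := K.curry.continuous.subtype_mk _
  source' := rfl
  target' := rfl

theorem homY_zero {ρ : Simp k M} {a b : YY ρ} (p : Path a b) : (homY p).at 0 = a.1 := by
  ext x; change (p 0).1 x = _; rw [p.source]

theorem homY_one {ρ : Simp k M} {a b : YY ρ} (p : Path a b) : (homY p).at 1 = b.1 := by
  ext x; change (p 1).1 x = _; rw [p.target]

theorem homY_bdry {ρ : Simp k M} {a b : YY ρ} (p : Path a b) (t : I)
    {x : stdSimplex ℝ (Fin k)} (hx : x ∈ bdry k) : homY p (t, x) = ρ x := (p t).2 x hx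

/-- homotopic paths give homotopic homotopies -/
theorem homRel2_of_homotopic {ρ : Simp k M} {a b : YY ρ} {p q : Path a b} (h : p.Homotopic q) :
    HomRel2 (homY p) (homY q) := by
  obtain ⟨F⟩ := h
  refine ⟨⟨⟨⟨fun z => (F (z.1, z.2.1)).1 z.2.2, ?_⟩, fun z => ?_, fun z => ?_⟩, ?_⟩⟩
  · refine Continuous.eval ?_ (continuous_snd.comp continuous_snd)
    exact continuous_subtype_val.comp (F.continuous.comp
      (continuous_fst.prodMk (continuous_fst.comp continuous_snd)))
  · change (F (0, z.1)).1 z.2 = _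
    rw [F.apply_zero]; rfl
  · change (F (1, z.1)).1 z.2 = _
    rw [F.apply_one]; rfl
  · rintro s ⟨t, x⟩ hz
    change (F (s, t)).1 x = (p t).1 x
    rcases hz with hx | ht | ht
    · rw [(F (s, t)).2 x hx, (p t).2 x hx]
    · have ht : t = 0 := ht
      rw [ht, F.source, p.source]
    · have ht : t = 1 := ht
      rw [ht, F.target, p.target]

/-- a homotopy relative to the boundary gives a path -/
theorem exists_path {ρ σ σ' : Simp k M} (hσ : ∀ x ∈ bdry k, σ x = ρ x)
    (hσ' : ∀ x ∈ bdry k, σ' x = ρ x) (h : HomRel σ σ') :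
    Nonempty (Path (⟨σ, hσ⟩ : YY ρ) ⟨σ', hσ'⟩) := by
  obtain ⟨F⟩ := h
  refine ⟨((pthY ρ ⟨fun z => F z, F.continuous⟩ fun t x hx => ?_).cast ?_ ?_)⟩
  · change F (t, x) = ρ x
    rw [F.eq_fst t hx, hσ x hx]
  · apply Subtype.ext
    ext x
    exact (F.apply_zero x).symm
  · apply Subtype.ext
    ext x
    exact (F.apply_one x).symm

/-- `p` is the restriction of `P` to the face `i`. -/
def Lie (i : Fin (k + 1)) {a b : Simp (k + 1) M} (P : Path a b) {ρ : Simp k M} {α β : YY ρ}
    (p : Path α β) : Prop := ∀ t x, P t (face k i x) = (p t).1 x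

theorem Lie.trans {i : Fin (k + 1)} {a b c : Simp (k + 1) M} {P : Path a b} {P' : Path b c}
    {ρ : Simp k M} {α β γ : YY ρ} {p : Path α β} {p' : Path β γ} (h : Lie i P p)
    (h' : Lie i P' p') : Lie i (P.trans P') (p.trans p') := by
  intro t x
  rw [Path.trans_apply, Path.trans_apply]
  split_ifs
  · exact h _ x
  · exact h' _ x

theorem Lie.symm {i : Fin (k + 1)} {a b : Simp (k + 1) M} {P : Path a b}
    {ρ : Simp k M} {α β : YY ρ} {p : Path α β} (h : Lie i P p) : Lie i P.symm p.symm :=
  fun t x => h _ x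

theorem Lie.cast {i : Fin (k + 1)} {a b a' b' : Simp (k + 1) M} {P : Path a b}
    {ρ : Simp k M} {α β α' β' : YY ρ} {p : Path α β} (h : Lie i P p) (h1 : a' = a) (h2 : b' = b)
    (h3 : α' = α) (h4 : β' = β) : Lie i (P.cast h1 h2) (p.cast h3 h4) :=
  fun t x => h t x

/-- the form of `SpecWd` for paths -/
theorem wd (hW : SpecWd) {a b b' : Simp (k + 1) M} (P : Path a b) (P' : Path a b')
    (h : ∀ i, ∃ (ρ : Simp k M) (α β : YY ρ) (p p' : Path α β), Lie i P p ∧ Lie i P' p' ∧
      p.Homotopic p') : HomRel b b' := by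
  have h1 := hW M k (hom P) (hom P') ?_ ?_
  · have e1 : (hom P).at 1 = b := by ext x; change P 1 x = _; rw [P.target]
    have e2 : (hom P').at 1 = b' := by ext x; change P' 1 x = _; rw [P'.target]
    rwa [e1, e2] at h1
  · have e1 : (hom P).at 0 = a := by ext x; change P 0 x = _; rw [P.source]
    have e2 : (hom P').at 0 = a := by ext x; change P' 0 x = _; rw [P'.source]
    rw [e1, e2]
    exact ContinuousMap.HomotopicRel.refl _
  · intro i
    obtain ⟨ρ, α, β, p, p', hp, hp', hpp⟩ := h i
    have e1 : (hom P).fc i = homY p := by ext z; exact hp z.1 z.2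
    have e2 : (hom P').fc i = homY p' := by ext z; exact hp' z.1 z.2
    rw [e1, e2]
    exact homRel2_of_homotopic hpp

end Vale.Agent.P223.MT
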