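import Vale.Agent.P223.MT.St1

/-! The gauge group and its action. -/

namespace Vale.Agent.P223.MT

open H (Simp Chain face bd l1)

variable {M : Type} [TopologicalSpace M] {k j l n m : ℕ}

/-- homotopy classes relative to the boundary -/
def stp (M : Type) [TopologicalSpace M] (k : ℕ) : Setoid (Simp k M) :=
  ⟨HomRel, ContinuousMap.HomotopicRel.equivalence⟩

/-- homotopy classes relative to the boundary -/
abbrev Cls (M : Type) [TopologicalSpace M] (k : ℕ) := Quotient (stp M k)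

/-- the class of a simplex -/
def cl (ρ : Simp k M) : Cls M k := Quotient.mk (stp M k) ρ

/-- the chosen representative -/
noncomputable def rep (q : Cls M k) : Simp k M := Quotient.out q

theorem cl_rep (q : Cls M k) : cl (rep q) = q := Quotient.out_eq q

theorem cl_eq {ρ ρ' : Simp k M} : cl ρ = cl ρ' ↔ HomRel ρ ρ' := Quotient.eq (r := stp M k)

/-- the gauge group -/
abbrev Ga (M : Type) [TopologicalSpace M] (k : ℕ) :=
  (q : Cls M k) → FundamentalGroup (YY (rep q)) (YY.base (rep q))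

/-- a loop which represents an element of the fundamental group -/
noncomputable def lp {ρ : Simp k M} (a : FundamentalGroup (YY ρ) (YY.base ρ)) :
    Path (YY.base ρ) (YY.base ρ) := Classical.choose (Path.Homotopic.Quotient.mk_surjective a)

theorem mk_lp {ρ : Simp k M} (a : FundamentalGroup (YY ρ) (YY.base ρ)) :
    Path.Homotopic.Quotient.mk (lp a) = a :=
  Classical.choose_spec (Path.Homotopic.Quotient.mk_surjective a)

theorem bdry_eq_of_homRel {σ σ' : Simp k M} (h : HomRel σ σ') :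
    ∀ x ∈ bdry k, σ x = σ' x := fun _ hx => h.fst_eq_snd hx

theorem bdry_rep (ρ : Simp k M) : ∀ x ∈ bdry k, ρ x = rep (cl ρ) x :=
  bdry_eq_of_homRel (cl_eq.1 (cl_rep (cl ρ)).symm)

/-- the chosen path to the representative -/
noncomputable def pr (ρ : Simp k M) : Path (⟨ρ, bdry_rep ρ⟩ : YY (rep (cl ρ)))
    (YY.base (rep (cl ρ))) :=
  Classical.choice (exists_path (bdry_rep ρ) (fun _ _ => rfl) (cl_eq.1 (cl_rep (cl ρ)).symm))

/-- the chosen homotopy of `ρ`, for a gauge transformation -/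
noncomputable def W (h : Ga M k) (ρ : Simp k M) : Hom k M :=
  homY ((pr ρ).trans (lp (h (cl ρ))))

theorem W_zero (h : Ga M k) (ρ : Simp k M) : (W h ρ).at 0 = ρ := homY_zero _

theorem W_one (h : Ga M k) (ρ : Simp k M) : (W h ρ).at 1 = rep (cl ρ) := homY_one _

theorem W_bdry (h : Ga M k) (ρ : Simp k M) (t : I) : ∀ x ∈ bdry k, W h ρ (t, x) = ρ x :=
  fun x hx => (homY_bdry _ t hx).trans (bdry_rep ρ x hx).symm

theorem W_spec (ρ : Simp k M) (q : Cls M k) (hq : cl ρ = q) :
    ∃ (a : YY (rep q)) (P : Path a (YY.base (rep q))),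
      ∀ h : Ga M k, W h ρ = homY (P.trans (lp (h q))) := by
  subst hq
  exact ⟨_, pr ρ, fun h => rfl⟩

/-- a system with given homotopies in dimension `m` -/
structure Good (m : ℕ) (h : Ga M (m + 1)) (S : Sys M) : Prop where
  low : ∀ k ≤ m, ∀ (σ : Simp k M) t x, S.H k σ (t, x) = σ x
  mid : ∀ ρ, S.H (m + 1) ρ = W h ρ

theorem exists_good (hS : SpecSys) (m : ℕ) (h : Ga M (m + 1)) : ∃ S, Good m h S := by
  obtain ⟨S, h1, h2⟩ := hS M m (W h) (W_zero h) (W_bdry h)
  exact ⟨S, h1, h2⟩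

/-- the simplex at time `1` -/
def phi (S : Sys M) (σ : Simp k M) : Simp k M := (S.H k σ).at 1

theorem H_zero (S : Sys M) (σ : Simp k M) (x : stdSimplex ℝ (Fin k)) : S.H k σ (0, x) = σ x :=
  congrArg (fun τ : Simp k M => τ x) (S.zero k σ)

theorem H_face (S : Sys M) (σ : Simp (k + 1) M) (i : Fin (k + 1)) (t : I)
    (x : stdSimplex ℝ (Fin k)) :
    S.H (k + 1) σ (t, face k i x) = S.H k (σ.comp (face k i)) (t, x) :=
  congrArg (fun τ : Hom k M => τ (t, x)) (S.fc k σ i)

theorem H_sub (S : Sys M) : ∀ k j (f : Fin j ↪o Fin k) (σ : Simp k M) (t : I)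
    (x : stdSimplex ℝ (Fin j)), S.H k σ (t, sub f x) = S.H j (σ.comp (sub f)) (t, x) := by
  refine face_induction ?_ ?_
  · intro k f σ t x
    rw [sub_eq_id]; rfl
  · intro k j g i ih σ t x
    rw [← sub_comp, ← face_eq]
    change S.H (k + 1) σ (t, face k i (sub g x)) = _
    rw [H_face, ih]; rfl

theorem phi_face (S : Sys M) (σ : Simp (k + 1) M) (i : Fin (k + 1)) :
    (phi S σ).comp (face k i) = phi S (σ.comp (face k i)) := by
  ext x; exact H_face S σ i 1 x

theorem phi_sub (S : Sys M) (f : Fin j ↪o Fin k) (σ : Simp k M) :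
    (phi S σ).comp (sub f) = phi S (σ.comp (sub f)) := by
  ext x; exact H_sub S k j f σ 1 x

theorem phi_mid {h : Ga M (m + 1)} {S : Sys M} (hS : Good m h S) (ρ : Simp (m + 1) M) :
    phi S ρ = rep (cl ρ) := by
  rw [phi, hS.mid, W_one]

theorem phi_low {h : Ga M (m + 1)} {S : Sys M} (hS : Good m h S) (hk : k ≤ m) (ρ : Simp k M) :
    phi S ρ = ρ := by
  ext x; exact hS.low k hk ρ 1 x

theorem vert_eq (σ : Simp k M) (i : Fin k) : vert σ i = vert (σ.comp (sub (pt i))) 0 := by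
  rw [vert_comp]; rfl

theorem phi_vert {h : Ga M (m + 1)} {S : Sys M} (hS : Good m h S) (hm : 1 ≤ m) (ρ : Simp k M) :
    vert (phi S ρ) = vert ρ := by
  funext i
  rw [vert_eq, phi_sub, phi_low hS hm, ← vert_eq]

/-- the track of a simplex -/
def trk (S : Sys M) (σ : Simp k M) : Path σ (phi S σ) := (pth (S.H k σ)).cast (S.zero k σ).symm rfl

theorem trk_apply (S : Sys M) (σ : Simp k M) (t : I) (x : stdSimplex ℝ (Fin k)) :
    trk S σ t x = S.H k σ (t, x) := rfl

theorem trk_lie {h : Ga M (m + 1)} {S : Sys M} (hS : Good m h S) (τ : Simp (m + 2) M)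
    (i : Fin (m + 2)) (q : Cls M (m + 1)) {a : YY (rep q)} {P : Path a (YY.base (rep q))}
    (hP : ∀ h : Ga M (m + 1), W h (τ.comp (face (m + 1) i)) = homY (P.trans (lp (h q)))) :
    Lie i (trk S τ) (P.trans (lp (h q))) := by
  intro t x
  rw [trk_apply, H_face, hS.mid, hP]; rfl

theorem calc1 {X : Type} [TopologicalSpace X] {a x : X} (P : Path a x) (l₁ l : Path x x)
    (h : Path.Homotopic.Quotient.mk l₁ = Path.Homotopic.Quotient.refl x) :
    Path.Homotopic.Quotient.mk ((P.trans l₁).symm.trans (P.trans l)) =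
      Path.Homotopic.Quotient.mk l := by
  rw [Path.Homotopic.Quotient.mk_trans, Path.Homotopic.Quotient.mk_symm,
    Path.Homotopic.Quotient.mk_trans, Path.Homotopic.Quotient.mk_trans, h,
    Path.Homotopic.Quotient.trans_refl, ← Path.Homotopic.Quotient.trans_assoc,
    Path.Homotopic.Quotient.symm_trans, Path.Homotopic.Quotient.refl_trans]

/-- CASE 1 of the transitivity -/
theorem case1 (hW : SpecWd) (hC : SpecComm) (hm : 1 ≤ m) {g h h' : Ga M (m + 1)}
    {S₁ S S' : Sys M} (h₁ : Good m 1 S₁) (hS : Good m h S) (hS' : Good m h' S')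
    (hg : ∀ q, h' q = g q * h q) (τ τ' : Simp (m + 2) M) (κ : Path (phi S₁ τ') (phi S₁ τ))
    (hκ : ∀ i, ∃ q, cl (τ.comp (face (m + 1) i)) = q ∧ cl (τ'.comp (face (m + 1) i)) = q ∧
      ∃ p : Path (YY.base (rep q)) (YY.base (rep q)), Lie i κ p ∧
        Path.Homotopic.Quotient.mk p = g q) :
    HomRel (phi S τ) (phi S' τ') := by
  refine wd hW (κ.trans ((trk S₁ τ).symm.trans (trk S τ)))
    ((trk S₁ τ').symm.trans (trk S' τ')) fun i => ?_
  obtain ⟨q, hq, hq', p, hp, hpg⟩ := hκ i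
  obtain ⟨a, P, hP⟩ := W_spec _ q hq
  obtain ⟨a', P', hP'⟩ := W_spec _ q hq'
  refine ⟨rep q, YY.base (rep q), YY.base (rep q),
    p.trans ((P.trans (lp ((1 : Ga M (m + 1)) q))).symm.trans (P.trans (lp (h q)))),
    (P'.trans (lp ((1 : Ga M (m + 1)) q))).symm.trans (P'.trans (lp (h' q))),
    hp.trans ((trk_lie h₁ τ i q hP).symm.trans (trk_lie hS τ i q hP)),
    (trk_lie h₁ τ' i q hP').symm.trans (trk_lie hS' τ' i q hP'), ?_⟩
  have h1 : Path.Homotopic.Quotient.mk (lp ((1 : Ga M (m + 1)) q)) =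
      Path.Homotopic.Quotient.refl (YY.base (rep q)) := mk_lp _
  rw [← Path.Homotopic.Quotient.eq, calc1 P' _ _ h1, Path.Homotopic.Quotient.mk_trans,
    calc1 P _ _ h1, mk_lp, mk_lp, hpg, hg]
  obtain ⟨u, hu⟩ := Path.Homotopic.Quotient.mk_surjective (g q)
  obtain ⟨v, hv⟩ := Path.Homotopic.Quotient.mk_surjective (h q)
  have e1 : g q * h q = (Path.Homotopic.Quotient.mk v).trans (Path.Homotopic.Quotient.mk u) := by
    rw [FundamentalGroup.mul_def, hu, hv]
  rw [e1, ← hu, ← hv, ← Path.Homotopic.Quotient.mk_trans, ← Path.Homotopic.Quotient.mk_trans,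
    Path.Homotopic.Quotient.eq]
  exact hC M m hm (rep q) u v

end Vale.Agent.P223.MT
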