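import Vale.Agent.P223.MT.St2

/-! Transitivity of the gauge group. -/

namespace Vale.Agent.P223.MT

open H (Simp Chain face bd l1)

variable {M : Type} [TopologicalSpace M] {k j l n m : ℕ}

/-- add the vertex `0` -/
theorem exists_cons (e : Fin j ↪o Fin (k + 1)) (h : 0 ∉ Set.range e) :
    ∃ e' : Fin (j + 1) ↪o Fin (k + 1), e' 0 = 0 ∧ ∀ i : Fin j, e' i.succ = e i := by
  refine ⟨OrderEmbedding.ofStrictMono (Fin.cons 0 e) ?_, rfl, fun i => rfl⟩
  rw [Fin.strictMono_iff_lt_succ]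
  intro i
  cases j with
  | zero => exact i.elim0
  | succ j =>
    refine Fin.cases ?_ (fun i => ?_) i
    · have : e 0 ≠ 0 := fun h0 => h ⟨0, h0⟩
      exact Fin.pos_iff_ne_zero.2 this
    · have : Fin.castSucc (Fin.succ i) = Fin.succ (Fin.castSucc i) := rfl
      rw [this, Fin.cons_succ, Fin.cons_succ]
      exact e.strictMono (Fin.castSucc_lt_succ)

/-- the restriction of a homotopy to a face -/
theorem fc_at (K : Hom (k + 1) M) (i : Fin (k + 1)) (t : I) :
    (K.fc i).at t = (K.at t).comp (face k i) := rfl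

theorem succ_eq_face (e : Fin (j + 1) ↪o Fin k) :
    (sub e).comp (face j 0) = sub ((Fin.succAboveOrderEmb 0).trans e) := by
  rw [face_eq, sub_comp]

theorem cl_inj {σ : Simp (n + 1) M} (hσ : Function.Injective (vert σ)) (hm : 1 ≤ m)
    {f f' : Fin (m + 1) ↪o Fin (n + 1)} (h : cl (σ.comp (sub f)) = cl (σ.comp (sub f'))) :
    f = f' := by
  obtain ⟨m, rfl⟩ : ∃ a, m = a + 1 := ⟨m - 1, by omega⟩
  ext i
  have h1 := bdry_eq_of_homRel (cl_eq.1 h) _ (vertex_mem_bdry i)
  have h2 : vert σ (f i) = vert σ (f' i) := by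
    rw [← vert_comp, ← vert_comp]; exact h1
  exact congrArg Fin.val (hσ h2)

/-- faces after a gauge transformation -/
theorem phi_faces {h : Ga M (m + 1)} {S : Sys M} (hS : Good m h S)
    {τ τ' : Simp (m + 2) M}
    (H : ∀ i, cl (τ.comp (face (m + 1) i)) = cl (τ'.comp (face (m + 1) i))) :
    ∀ x ∈ bdry (m + 2), phi S τ x = phi S τ' x := by
  rintro x ⟨i, hi⟩
  obtain ⟨y, rfl⟩ := exists_face i hi
  have h1 : (phi S τ).comp (face (m + 1) i) = (phi S τ').comp (face (m + 1) i) := by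
    rw [phi_face, phi_face, phi_mid hS, phi_mid hS, H i]
  exact congrArg (fun ρ : Simp (m + 1) M => ρ y) h1

theorem face_horn (i : Fin (k + 2)) (hi : i ≠ 0) (x : stdSimplex ℝ (Fin (k + 1))) :
    face (k + 1) i x ∈ {x : stdSimplex ℝ (Fin (k + 2)) | ∃ i, i ≠ 0 ∧ x i = 0} :=
  ⟨i, hi, face_apply_self i x⟩

theorem face_zero_horn (x : stdSimplex ℝ (Fin (k + 1))) (hx : x ∈ bdry (k + 1)) :
    face (k + 1) 0 x ∈ {x : stdSimplex ℝ (Fin (k + 2)) | ∃ i, i ≠ 0 ∧ x i = 0} := by
  obtain ⟨i, hi⟩ := hx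
  refine ⟨i.succ, Fin.succ_ne_zero i, ?_⟩
  have := face_apply 0 x i
  rw [Fin.succAbove_zero] at this
  rw [this, hi]

/-- the homotopy on a simplex with first vertex `0` -/
theorem exists_kappa (hH : SpecHorn1) {S₁ : Sys M} (h₁ : Good m 1 S₁) (τ τ' : Simp (m + 2) M)
    (H : ∀ i, cl (τ.comp (face (m + 1) i)) = cl (τ'.comp (face (m + 1) i))) (q : Cls M (m + 1))
    (hq : cl (τ.comp (face (m + 1) 0)) = q) :
    ∃ (κ : Path (phi S₁ τ') (phi S₁ τ)) (p : Path (YY.base (rep q)) (YY.base (rep q))),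
      Lie 0 κ p ∧ ∀ i, i ≠ 0 → Lie i κ (Path.refl (YY.base
        (rep (cl (τ.comp (face (m + 1) i)))))) := by
  subst hq
  obtain ⟨F⟩ := hH M m (phi S₁ τ') (phi S₁ τ) fun x hx => by
    obtain ⟨i, -, hi⟩ := hx
    exact (phi_faces h₁ H x ⟨i, hi⟩).symm
  let K : Hom (m + 2) M := ⟨fun z => F z, F.continuous⟩
  have hK0 : K.at 0 = phi S₁ τ' := by ext x; exact F.apply_zero x
  have hK1 : K.at 1 = phi S₁ τ := by ext x; exact F.apply_one x
  have hb : ∀ t, ∀ x ∈ bdry (m + 1), K.fc 0 (t, x) = rep (cl (τ.comp (face (m + 1) 0))) x := by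
    intro t x hx
    have h2 : K.fc 0 (t, x) = phi S₁ τ (face (m + 1) 0 x) := F.eq_snd t (face_zero_horn x hx)
    rw [h2, ← phi_mid h₁, ← phi_face]; rfl
  refine ⟨(pth K).cast hK0.symm hK1.symm, (pthY _ (K.fc 0) hb).cast ?_ ?_, fun t x => rfl, ?_⟩
  · apply Subtype.ext
    change rep _ = (K.fc 0).at 0
    rw [fc_at, hK0, phi_face, phi_mid h₁, H 0]
  · apply Subtype.ext
    change rep _ = (K.fc 0).at 1
    rw [fc_at, hK1, phi_face, phi_mid h₁]
  · intro i hi t x
    have h2 : K (t, face (m + 1) i x) = phi S₁ τ (face (m + 1) i x) :=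
      F.eq_snd t (face_horn i hi x)
    change K (t, face (m + 1) i x) = rep _ x
    rw [h2, ← phi_mid h₁, ← phi_face]; rfl

/-- TRANSITIVITY -/
theorem transitive (hW : SpecWd) (hC : SpecComm) (hH : SpecHorn1) (hH2 : SpecHorn2)
    (hS : SpecSys) (hm : 1 ≤ m)
    (σ σ' : Simp (n + 1) M) (hσ : Function.Injective (vert σ)) (hr : Rel m σ σ') :
    ∃ g : Ga M (m + 1), ∀ (h h' : Ga M (m + 1)) (S S' : Sys M), Good m h S → Good m h' S' →
      (∀ q, h' q = g q * h q) → Rel (m + 1) (phi S σ) (phi S' σ') := by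
  obtain ⟨S₁, h₁⟩ := exists_good hS m (1 : Ga M (m + 1))
  have hcl : ∀ f : Fin (m + 1) ↪o Fin (n + 1), cl (σ.comp (sub f)) = cl (σ'.comp (sub f)) :=
    fun f => cl_eq.2 (hr f)
  have hcle : ∀ (e : Fin (m + 2) ↪o Fin (n + 1)) i,
      cl ((σ.comp (sub e)).comp (face (m + 1) i)) =
        cl ((σ'.comp (sub e)).comp (face (m + 1) i)) := by
    intro e i
    rw [ContinuousMap.comp_assoc, ContinuousMap.comp_assoc, face_eq, sub_comp]
    exact hcl _
  have key : ∀ q : Cls M (m + 1), ∃ γ : FundamentalGroup (YY (rep q)) (YY.base (rep q)),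
      (∀ e : Fin (m + 2) ↪o Fin (n + 1), e 0 = 0 →
        cl ((σ.comp (sub e)).comp (face (m + 1) 0)) = q →
        ∃ (κ : Path (phi S₁ (σ'.comp (sub e))) (phi S₁ (σ.comp (sub e))))
          (p : Path (YY.base (rep q)) (YY.base (rep q))),
          Lie 0 κ p ∧ Path.Homotopic.Quotient.mk p = γ ∧ ∀ i, i ≠ 0 → Lie i κ (Path.refl (YY.base
            (rep (cl ((σ.comp (sub e)).comp (face (m + 1) i))))))) ∧
      ∀ f : Fin (m + 1) ↪o Fin (n + 1), f 0 = 0 → cl (σ.comp (sub f)) = q → γ = 1 := by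
    intro q
    by_cases hq : ∃ e : Fin (m + 2) ↪o Fin (n + 1), e 0 = 0 ∧
        cl ((σ.comp (sub e)).comp (face (m + 1) 0)) = q
    · obtain ⟨e, he0, he⟩ := hq
      obtain ⟨κ, p, h1, h2⟩ := exists_kappa hH h₁ (σ.comp (sub e)) (σ'.comp (sub e)) (hcle e) q he
      refine ⟨Path.Homotopic.Quotient.mk p, fun e' he0' he' => ?_, fun f hf0 hf => ?_⟩
      · have hee : e = e' := by
          have h3 : (Fin.succAboveOrderEmb 0).trans e = (Fin.succAboveOrderEmb 0).trans e' := by
            refine cl_inj hσ hm ?_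
            rw [← succ_eq_face, ← succ_eq_face, ← ContinuousMap.comp_assoc,
              ← ContinuousMap.comp_assoc, he, he']
          ext i
          refine Fin.cases ?_ (fun i => ?_) i
          · rw [he0, he0']
          · exact congrArg (fun a : Fin (m + 1) ↪o Fin (n + 1) => (a i).val) h3
        subst hee
        exact ⟨κ, p, h1, rfl, h2⟩
      · exfalso
        have h3 : (Fin.succAboveOrderEmb 0).trans e = f := by
          refine cl_inj hσ hm ?_
          rw [← succ_eq_face, ← ContinuousMap.comp_assoc, he, hf]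
        have h4 : e (Fin.succ 0) = 0 := by
          rw [← hf0, ← h3]; rfl
        rw [← he0] at h4
        exact Fin.succ_ne_zero _ (e.injective h4)
    · push Not at hq
      exact ⟨1, fun e he0 he => absurd he (hq e he0), fun f _ _ => rfl⟩
  choose g hg1 hg2 using key
  refine ⟨g, fun h h' S S' hSh hSh' hgh => ?_⟩
  -- the faces which contain the vertex `0`
  have hc1 : ∀ e : Fin (m + 2) ↪o Fin (n + 1), e 0 = 0 →
      HomRel (phi S (σ.comp (sub e))) (phi S' (σ'.comp (sub e))) := by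
    intro e he
    obtain ⟨κ, p, h1, h2, h3⟩ := hg1 _ e he rfl
    refine case1 hW hC hm h₁ hSh hSh' hgh _ _ κ fun i => ?_
    refine ⟨_, rfl, (hcle e i).symm, ?_⟩
    by_cases hi : i = 0
    · subst hi
      exact ⟨p, h1, h2⟩
    · refine ⟨_, h3 i hi, ?_⟩
      refine Eq.symm (hg2 _ ((Fin.succAboveOrderEmb i).trans e) ?_ ?_)
      · change e (i.succAbove 0) = 0
        rw [Fin.succAbove_ne_zero_zero hi, he]
      · rw [← sub_comp, ← face_eq, ← ContinuousMap.comp_assoc]
  intro e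
  rw [phi_sub, phi_sub]
  by_cases he : e 0 = 0
  · exact hc1 e he
  · have hr0 : 0 ∉ Set.range e := by
      rintro ⟨i, hi⟩
      exact he (le_antisymm (hi ▸ e.monotone (Fin.zero_le i)) (Fin.zero_le _))
    obtain ⟨e', he0, hes⟩ := exists_cons e hr0
    have hse : (Fin.succAboveOrderEmb 0).trans e' = e := by
      ext i
      exact congrArg Fin.val (hes i)
    have h1 := hH2 M (m + 1) (phi S (σ.comp (sub e'))) (phi S' (σ'.comp (sub e'))) fun i hi => ?_
    · rwa [phi_face, phi_face, ContinuousMap.comp_assoc, ContinuousMap.comp_assoc,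
        succ_eq_face, hse] at h1
    · rw [phi_face, phi_face, ContinuousMap.comp_assoc, ContinuousMap.comp_assoc,
        face_eq, sub_comp]
      refine hc1 _ ?_
      change e' (i.succAbove 0) = 0
      rw [Fin.succAbove_ne_zero_zero hi, he0]

end Vale.Agent.P223.MT
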